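import Vale.Agent.P277.H60.Z.Ord0
import Vale.Agent.P277.H762.L3

/-!
# P277, T3: `StEx0`
-/

open scoped Manifold ContDiff Topology
open Vale.Agent.P272.K Vale.Agent.P285.H281.FD Set Filter Metric

set_option linter.unusedSectionVars false

noncomputable section

namespace Vale.Agent.P277.H60.Z

open Vale.Agent.P277 Vale.Agent.P277.H762 Vale.Agent.P277.T3 Vale.Agent.P277.PH
open Vale.Agent.P277.H60.X

section
variable {H : Type} [TopologicalSpace H] [T2Space H] [CompactSpace H] [ChartedSpace (Cm 3) H]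
  [IsManifold 𝓘(ℂ, Cm 3) ω H] {S : Set H} {q : Cm 3 → H} {p₀ : Cm 2} {r : ℝ}

theorem ndim0 {x : H} (hx : x ∈ GS0 S) {V : Set H} (hV : IsOpen V)
    (hxV : x ∈ V) : ¬ DimLe (XH 3 H) 1 (V ∩ S) := by
  obtain ⟨q, p₀, r, h, hr, rfl⟩ := hx
  exact h.ndim hV (mem_ball_self hr) rfl hxV

theorem nbhd0 (hq : SC S q (ball (zx p₀) r)) {ρ : ℝ} (hρ : 0 < ρ) (hρr : ρ ≤ r) (Z : Set (Cm 2)) :
    ∃ V : Set H, IsOpen V ∧ q (zx p₀) ∈ V ∧ ∀ y ∈ V, y ∈ S →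
      y ∈ q '' (ball (zx p₀) r ∩ zx '' Z) ∨ ∃ p ∈ ball p₀ ρ, p ∉ Z ∧ q (zx p) = y := by
  have hs : ball (zx p₀) ρ ⊆ ball (zx p₀) r := ball_subset_ball hρr
  refine ⟨q '' ball (zx p₀) ρ, hq.openMap _ hs isOpen_ball, ⟨_, mem_ball_self hρ, rfl⟩, ?_⟩
  rintro _ ⟨w, hw, rfl⟩ hS
  have h0 : w 0 = 0 := (hq.mem w (hs hw)).1 hS
  have h1 := zx_l2 h0
  have hp : l2 w ∈ ball p₀ ρ := by rw [mem_ball, ← dist_zx, h1]; exact hw
  by_cases hpZ : l2 w ∈ Z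
  · exact Or.inl ⟨w, ⟨hs hw, _, hpZ, h1⟩, rfl⟩
  · exact Or.inr ⟨l2 w, hp, hpZ, by rw [h1]⟩

theorem dimZ (hq : SC S q (ball (zx p₀) r)) {Z : Set (Cm 2)} (hZ : Cv 1 Z) :
    DimLe (XH 3 H) 1 (q '' (ball (zx p₀) r ∩ zx '' Z)) :=
  hq.dimLe (hZ.image isOpen_univ (subset_univ _) fun p _ => zx_an p)

/-- nowhere dense analytic sets of threefolds have dimension `≤ 2` -/
theorem dimLe_of_an [Nonempty H] [SecondCountableTopology H] (hB1 : StB1)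
    (hS : ∀ y, IsAnAt 3 S y) (hd : Dense Sᶜ) : DimLe (XH 3 H) 2 S := by
  have : Nonempty (XH 3 H).pt := inferInstanceAs (Nonempty H)
  refine thinM_iff.1 (H335.HY.thinM_of_local fun y hy => ?_)
  obtain ⟨k, h, hh, hev⟩ := hS y
  set e := chartAt (Cm 3) y with he
  have hAt : At e y := at_chartAt y
  have h1 : ∀ᶠ z in 𝓝 (e y), z ∈ e.target ∧ (e.symm z ∈ S ↔ ∀ i, h i (e.symm z) = 0) ∧
      ∀ i, AnalyticAt ℂ (fun z => h i (e.symm z)) z := by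
    refine (e.open_target.eventually_mem (e.map_source hAt.2)).and ((ev_symm hAt.2 hev).and ?_)
    exact eventually_all.2 fun i => (hh i e hAt).eventually_analyticAt
  obtain ⟨r, hr, hball⟩ := Metric.eventually_nhds_iff_ball.1 h1
  set B := ball (e y) r with hB
  have hyB : e y ∈ B := mem_ball_self hr
  set N : Set H := e.source ∩ e ⁻¹' B with hN
  have hNo : IsOpen N := e.isOpen_inter_preimage isOpen_ball
  have hyN : y ∈ N := ⟨hAt.2, hyB⟩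
  obtain ⟨i₀, z₀, hz₀, hne⟩ : ∃ i₀, ∃ z₀ ∈ B, h i₀ (e.symm z₀) ≠ 0 := by
    obtain ⟨y', hy'N, hy'E⟩ := hd.inter_open_nonempty _ hNo ⟨y, hyN⟩
    have h2 := (hball (e y') hy'N.2).2.1
    rw [e.left_inv hy'N.1] at h2
    have h3 : ¬ ∀ i, h i y' = 0 := fun h => hy'E (h2.2 h)
    push Not at h3
    obtain ⟨i, hi⟩ := h3
    exact ⟨i, e y', hy'N.2, by rwa [e.left_inv hy'N.1]⟩
  have han : AnalyticOnNhd ℂ (fun z => h i₀ (e.symm z)) B := fun z hz => (hball z hz).2.2 i₀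
  have h0 : ∀ z ∈ B, ¬ (fun z => h i₀ (e.symm z)) =ᶠ[𝓝 z] 0 := by
    intro z hz hcon
    exact hne (han.eqOn_zero_of_preconnected_of_eventuallyEq_zero
      (convex_ball (e y) r).isPreconnected hz hcon hz₀)
  obtain ⟨W, g, hW, hg, hcov⟩ := hB1 2 B _ isOpen_ball han h0
  have hcv : Cv 2 {z | z ∈ B ∧ h i₀ (e.symm z) = 0} := ⟨W, g, hW, fun l p hp => (hg l p hp).1, hcov⟩
  refine ⟨N, hNo.mem_nhds hyN,
    (H335.HY.thinM_of_cv hAt.1 hcv fun z hz => (hball z hz.1).1).mono ?_⟩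
  rintro y' ⟨hy'N, hy'S⟩
  refine ⟨e y', ⟨hy'N.2, ?_⟩, e.left_inv hy'N.1⟩
  have h2 := (hball (e y') hy'N.2).2.1
  rw [e.left_inv hy'N.1] at h2
  show h i₀ (e.symm (e y')) = 0
  rw [e.left_inv hy'N.1]
  exact h2.1 hy'S i₀

end

theorem stEx0_of (hB1 : StB1) (hL3 : StL3) : StEx0 := by
  classical
  intro H _ _ _ _ _ _ S hSan hSd
  have : SecondCountableTopology H := ChartedSpace.secondCountable_of_sigmaCompact (Cm 3) H
  have hX : Nonempty (XH 3 H).pt := inferInstanceAs (Nonempty H)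
  have hS2 : DimLe (XH 3 H) 2 S := dimLe_of_an hB1 hSan hSd
  have hSc : IsClosed S := isClosed_of_isAnAt hSan
  set T : Set H := S \ GS0 S with hTdef
  have hT : IsClosed T := isClosed_bad0 hSc
  have hT1 : DimLe (XH 3 H) 1 T := by
    have h1 := H335.HY.stHyp H univ S isOpen_univ (fun y _ => hSan y)
      (fun y _ => by rw [hSd.closure_eq]; trivial)
    refine (thinM_iff.1 h1).mono ?_
    rintro y ⟨hy, hyG⟩
    refine ⟨trivial, hy, fun hcon => hyG ?_⟩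
    obtain ⟨q, D, w, hq, hw, rfl⟩ := exists_sc hcon
    exact gs0_of hq hw ((hq.mem w hw).1 hy)
  have hST : ∀ x, x ∈ S \ T → x ∈ GS0 S := by
    intro x hx
    by_contra hcon
    exact hx.2 ⟨hx.1, hcon⟩
  have hsurf : ∀ x ∈ S \ T, IsSurfX (XH 3 H) S x := by
    intro x hx
    obtain ⟨q, p₀, r, hq, hr, rfl⟩ := hST x hx
    exact hq.surf (mem_ball_self hr) rfl
  obtain ⟨K, c₀, hcomp⟩ : ∃ (K : ℕ) (c₀ : Fin K → H), ∀ x ∈ S \ T, ∃ i,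
      x ∈ connectedComponentIn (S \ T) (c₀ i) :=
    hL3 (XH 3 H) S T (isAn_of hSan) hS2 hT sdiff_subset hT1 hsurf
  have hdat : ∀ i : Fin K, ∃ (q : Cm 3 → H) (p₀ : Cm 2) (r : ℝ), c₀ i ∈ S \ T →
        SC S q (ball (zx p₀) r) ∧ 0 < r ∧ q (zx p₀) = c₀ i := by
    intro i
    by_cases hi : c₀ i ∈ S \ T
    · obtain ⟨q, p₀, r, h1, h2, h3⟩ := hST _ hi
      exact ⟨q, p₀, r, fun _ => ⟨h1, h2, h3⟩⟩
    · exact ⟨fun _ => Classical.arbitrary H, 0, 0, fun h => (hi h).elim⟩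
  choose q p₀ r hgood using hdat
  refine ⟨K, fun N D u hu => ?_⟩
  have hord : ∀ i : Fin K, ∃ (ρ : ℝ) (m : Fin 1 → Fin N → ℕ) (F : Fin 1 → Fin N → Cm 3 → ℂ)
      (C : Fin 1 → Fin N → ℝ) (Z : Set (Cm 2)), c₀ i ∈ S \ T →
        OrdData D u (p₀ i) (r i) (fun _ : Fin 1 => q i) ρ m F C Z := by
    intro i
    by_cases hi : c₀ i ∈ S \ T
    · obtain ⟨ρ, m, F, C, Z, h⟩ := exists_ordData0 hB1 (hgood i hi).2.1 (hgood i hi).1 hu
      exact ⟨ρ, m, F, C, Z, fun _ => h⟩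
    · exact ⟨0, fun _ _ => 0, fun _ _ _ => 0, fun _ _ => 0, ∅, fun h => (hi h).elim⟩
  choose ρ m F C Z hO using hord
  let Λ : (Fin N → ℝ) →ₗ[ℝ] (Fin K → ℝ) :=
    { toFun := fun c i => ∑ j, c j * (m i 0 j : ℝ)
      map_add' := fun c c' => by
        funext a
        simp only [Pi.add_apply, add_mul, Finset.sum_add_distrib]
      map_smul' := fun t c => by
        funext a
        simp only [Pi.smul_apply, smul_eq_mul, RingHom.id_apply, Finset.mul_sum, mul_assoc] }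
  refine ⟨Λ, fun c hc => ?_⟩
  have hsum : ∀ (i : Fin K), ∑ j, c j * (m i 0 j : ℝ) = 0 := fun i => congrFun hc i
  set Bd₀ : H → Prop := fun x => BdAt univ (⋃ i, D i) id (fun y => ∑ i, c i * u i y) x with hBd₀
  set A₁ : Set H := {x | ∃ V : Set H, IsOpen V ∧ x ∈ V ∧
    DimLe (XH 3 H) 1 {y | y ∈ V ∧ y ∈ S ∧ ¬ Bd₀ y}} with hA₁
  set A₂ : Set H := {x | ∃ V : Set H, IsOpen V ∧ x ∈ V ∧
    DimLe (XH 3 H) 1 {y | y ∈ V ∧ y ∈ S ∧ Bd₀ y}} with hA₂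
  have hA₁o : IsOpen A₁ := by
    rw [isOpen_iff_mem_nhds]
    rintro x ⟨V, hV, hxV, hd⟩
    filter_upwards [hV.mem_nhds hxV] with y hy using ⟨V, hV, hy, hd⟩
  have hA₂o : IsOpen A₂ := by
    rw [isOpen_iff_mem_nhds]
    rintro x ⟨V, hV, hxV, hd⟩
    filter_upwards [hV.mem_nhds hxV] with y hy using ⟨V, hV, hy, hd⟩
  have hdich : ∀ x ∈ S \ T, x ∈ A₁ ∨ x ∈ A₂ := by
    intro x hx
    obtain ⟨q', p', r', hq', hr', rfl⟩ := hST x hx
    obtain ⟨ρ', m', F', C', Z', hO'⟩ := exists_ordData0 hB1 hr' hq' hu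
    obtain ⟨V, hV, hpV, hVS⟩ := nbhd0 hq' hO'.pos hO'.le Z'
    by_cases hall : ∑ j, c j * (m' 0 j : ℝ) = 0
    · left
      refine ⟨V, hV, hpV, (dimZ hq' hO'.thin).mono ?_⟩
      rintro y ⟨hy, hyS, hyb⟩
      rcases hVS y hy hyS with h | ⟨p, hp, hpZ, rfl⟩
      · exact h
      · exact (hyb (bd_of0 hq' hO' c hall hp hpZ)).elim
    · right
      refine ⟨V, hV, hpV, (dimZ hq' hO'.thin).mono ?_⟩
      rintro y ⟨hy, hyS, hyb⟩
      rcases hVS y hy hyS with h | ⟨p, hp, hpZ, rfl⟩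
      · exact h
      · exact (not_bd_of0 hq' hu hO' c hall hp hpZ hyb).elim
  have hdisj : ∀ x ∈ S \ T, ¬ (x ∈ A₁ ∧ x ∈ A₂) := by
    rintro x hx ⟨⟨V, hV, hxV, hd⟩, ⟨V', hV', hxV', hd'⟩⟩
    refine ndim0 (hST x hx) (hV.inter hV') ⟨hxV, hxV'⟩ ((hd.union hd').mono ?_)
    rintro y ⟨⟨hy, hy'⟩, hyS⟩
    by_cases hyb : Bd₀ y
    · exact Or.inr ⟨hy', hyS, hyb⟩
    · exact Or.inl ⟨hy, hyS, hyb⟩
  have hbase : ∀ i, c₀ i ∈ S \ T → c₀ i ∈ A₁ := by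
    intro i hi
    obtain ⟨hq', hr', hgp⟩ := hgood i hi
    obtain ⟨V, hV, hpV, hVS⟩ := nbhd0 hq' (hO i hi).pos (hO i hi).le (Z i)
    rw [← hgp]
    refine ⟨V, hV, hpV, (dimZ hq' (hO i hi).thin).mono ?_⟩
    rintro y ⟨hy, hyS, hyb⟩
    rcases hVS y hy hyS with h | ⟨p, hp, hpZ, rfl⟩
    · exact h
    · exact (hyb (bd_of0 hq' (hO i hi) c (hsum i) hp hpZ)).elim
  have hall : ∀ x ∈ S \ T, x ∈ A₁ := by
    intro x hx
    obtain ⟨i, hi⟩ := hcomp x hx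
    have hci : c₀ i ∈ S \ T := by
      by_contra hcon
      rw [connectedComponentIn_eq_empty hcon] at hi
      exact hi
    by_contra hxA
    have hxA2 : x ∈ A₂ := (hdich x hx).resolve_left hxA
    obtain ⟨y, hy, hy1, hy2⟩ := isPreconnected_connectedComponentIn A₁ A₂ hA₁o hA₂o
      (fun y hy => hdich y (connectedComponentIn_subset _ _ hy))
      ⟨c₀ i, mem_connectedComponentIn hci, hbase i hci⟩ ⟨x, hi, hxA2⟩
    exact hdisj y (connectedComponentIn_subset _ _ hy) ⟨hy1, hy2⟩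
  have h3 : DimLe (XH 3 H) 1 ({x | x ∈ S \ T ∧ ¬ Bd₀ x} : Set H) := by
    refine dimLe_of_local (X := XH 3 H) ?_
    rintro x ⟨hx, -⟩
    obtain ⟨V, hV, hxV, hd⟩ := hall x hx
    refine ⟨V, hV, hxV, hd.mono ?_⟩
    rintro y ⟨hy, hyST, hyb⟩
    exact ⟨hy, hyST.1, hyb⟩
  refine thinM_iff.2 ((hT1.union h3).mono ?_)
  rintro x ⟨hxS, hxb⟩
  by_cases hxT : x ∈ T
  · exact Or.inl hxT
  · exact Or.inr ⟨⟨hxS, hxT⟩, hxb⟩

/-- (EX0) -/
theorem stEx0 : StEx0 := stEx0_of H622.stB1 H762.stL3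

end Vale.Agent.P277.H60.Z

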