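import Vale.Agent.P277.H60.Z.ACh
import Vale.Agent.P277.H615.Par

/-!
# P277, T3, A6': `StMatch`
-/

open scoped Manifold ContDiff Topology
open Vale.Agent.P272.K Vale.Agent.P285.H281.FD Set Filter Metric

set_option linter.unusedSectionVars false

noncomputable section

namespace Vale.Agent.P277.H60.Z

open Vale.Agent.P277 Vale.Agent.P277.H762 Vale.Agent.P277.T3 Vale.Agent.P277.PH
open Vale.Agent.P277.H60.X Vale.Agent.P277.T2

section
variable {Y : Type} [TopologicalSpace Y] [ChartedSpace (Cm 4) Y]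
  [IsManifold 𝓘(ℂ, Cm 4) ω Y] {E : Set Y} {Ψ Ψ' : Cm 4 → Y} {c c' : Cm 4} {r r' : ℝ}

theorem zzc : Continuous zz := continuous_of_an zz_an

theorem lstc : Continuous lst := continuous_of_an lst_an

/-- local analytic inverses of coordinate systems -/
theorem par_inv (h : IsPar E Ψ c r) {w : Cm 4} (hw : w ∈ ball c r) :
    ∃ (e : Chart 4 Y) (θ : OpenPartialHomeomorph (Cm 4) (Cm 4)), At e (Ψ w) ∧
      (⇑θ = fun w => e (Ψ w)) ∧ w ∈ θ.source ∧ ∀ z ∈ θ.target, AnalyticAt ℂ θ.symm z := by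
  set e := chartAt (Cm 4) (Ψ w) with hedef
  have he : At e (Ψ w) := ⟨chart_mem_atlas _ _, mem_chart_source _ _⟩
  obtain ⟨han, hdet⟩ := h.an w hw e he
  obtain ⟨θ, hθ, hwθ, -, hθs⟩ := H73.exists_localInv han
    (ContinuousLinearMap.toContinuousLinearEquivOfDetNeZero _ hdet).injective
  exact ⟨e, θ, he, hθ, hwθ, hθs⟩

/-- thin sets in coordinates, on the surface `{z 0 = z 1 = 0}` -/
theorem cv_par (h : IsPar E Ψ c r) {T : Set Y} (hT : ThinM 4 1 T) :
    Cv 1 {p : Cm 2 | zz p ∈ ball c r ∧ Ψ (zz p) ∈ T} := by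
  refine cv_of_local fun p hp => ?_
  obtain ⟨hpb, hpT⟩ := hp
  obtain ⟨e, θ, he, hθ, hwθ, hθs⟩ := par_inv h hpb
  have hN : ∀ᶠ p' in 𝓝 p, zz p' ∈ θ.source ∧ Ψ (zz p') ∈ e.source := by
    refine (zzc.continuousAt.eventually (θ.open_source.mem_nhds hwθ)).and ?_
    have h1 : ContinuousAt (fun p => Ψ (zz p)) p :=
      ContinuousAt.comp (g := Ψ) (h.cont _ hpb) zzc.continuousAt
    exact h1.eventually (e.open_source.mem_nhds he.2)
  refine ⟨_, hN, ?_⟩
  have h2 : Cv 1 ({z | z ∈ e.target ∧ e.symm z ∈ T} ∩ θ.target) :=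
    (thinM_cv hT he.1).mono inter_subset_left
  have h3 : Cv 1 ((fun z => lst (θ.symm z)) '' ({z | z ∈ e.target ∧ e.symm z ∈ T} ∩ θ.target)) :=
    Cv.image h2 θ.open_target inter_subset_right fun z hz =>
      AnalyticAt.fun_comp (lst_an _) (hθs z hz)
  refine h3.mono ?_
  rintro p' ⟨⟨h4, h5⟩, h6, h7⟩
  refine ⟨θ (zz p'), ⟨⟨?_, ?_⟩, θ.map_source h4⟩, ?_⟩
  · rw [hθ]; exact e.map_source h5
  · rw [hθ]
    show e.symm (e (Ψ (zz p'))) ∈ T
    rw [e.left_inv h5]; exact h7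
  · show lst (θ.symm (θ (zz p'))) = p'
    rw [θ.left_inv h4, lst_zz]

end

theorem stMatch : H615.StMatch := by
  intro Y _ _ _ _ _ E O q V hV hT Ψ c r hP hc1 hO
  have hcc : zz (lst c) = c := zz_lst hP.zero hc1
  -- transition to adapted coordinates
  have htr : ∀ l, ∀ p, zz p ∈ ball c r → Ψ (zz p) ∈ V l → ∃ (ψ ψ' : Cm 4 → Cm 4),
      AnalyticAt ℂ ψ (zz p) ∧ AnalyticAt ℂ ψ' (ψ (zz p)) ∧ (∀ᶠ w in 𝓝 (zz p), ψ' (ψ w) = w) ∧
      (∀ᶠ w in 𝓝 (zz p), (w 0 = 0 ↔ ψ w 0 = 0) ∧ (Ψ w ∈ V l ↔ ψ w 0 = 0 ∧ ψ w 1 = 0)) := by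
    intro l p hp hpV
    obtain ⟨Ψ', c', r', hA, hΨ'⟩ := hV l _ hpV
    obtain ⟨ρ, hρ, hρr⟩ := Metric.isOpen_iff.1 isOpen_ball _ hp
    have hP' : IsPar E Ψ (zz p) ρ := hP.restrict rfl hρ hρr
    obtain ⟨ψ, C, h1, h2, h3, -, -⟩ := H615.exists_trans hP' hA.par hΨ'.symm
    obtain ⟨ψ', C', g1, g2, g3, -, -⟩ := H615.exists_trans hA.par hP' hΨ'
    have ht : Tendsto ψ (𝓝 (zz p)) (𝓝 c') := by
      have := h1.continuousAt.tendsto
      rwa [h2] at this
    have hc : ContinuousAt (fun w => ψ' (ψ w)) (zz p) := by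
      refine ContinuousAt.comp (g := ψ') (f := ψ) ?_ h1.continuousAt
      rw [h2]; exact g1.continuousAt
    have hev : ∀ᶠ w in 𝓝 (zz p), ψ' (ψ w) ∈ ball (zz p) ρ := hc.eventually_mem (by
      rw [h2, g2]; exact ball_mem_nhds _ hρ)
    have hball : ∀ᶠ w in 𝓝 (zz p), ψ w ∈ ball c' r' := ht.eventually (ball_mem_nhds _ hA.par.pos)
    refine ⟨ψ, ψ', h1, by rw [h2]; exact g1, ?_, ?_⟩
    · filter_upwards [h3, ht.eventually g3, hev, ball_mem_nhds _ hρ] with w k1 k3 k5 k6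
      exact hP'.inj k5 k6 (by rw [k3, k1])
    · filter_upwards [h3, hball, ball_mem_nhds _ hρ] with w k1 k2 k3
      have k4 := hP'.mem w k3
      have k5 := hA.par.mem _ k2
      have k6 := hA.mem _ k2
      rw [k1] at k5 k6
      exact ⟨k4.symm.trans k5, k6⟩
  by_cases hgood : ∃ l p, ∃ (hp : zz p ∈ ball c r) (hpV : Ψ (zz p) ∈ V l),
      ∀ᶠ p' in 𝓝 p, Ψ (zz p') ∈ V l
  · obtain ⟨l, p, hp, hpV, hev⟩ := hgood
    obtain ⟨ψ, ψ', h1, h2, h3, h4⟩ := htr l p hp hpV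
    refine ⟨l, zz p, hp, ?_⟩
    have hzc : Tendsto zz (𝓝 p) (𝓝 (zz p)) := zzc.continuousAt
    -- the map `κ`
    set κ : Cm 2 → Cm 2 := fun p => lst (ψ (zz p)) with hκ
    have hz : ∀ᶠ p' in 𝓝 p, zz (κ p') = ψ (zz p') := by
      filter_upwards [hev, hzc.eventually h4] with p' k1 k2
      obtain ⟨k3, k4⟩ := k2.2.1 k1
      exact zz_lst k3 k4
    have hκa : AnalyticAt ℂ κ p :=
      AnalyticAt.fun_comp (g := fun z => lst z) (lst_an _)
        (AnalyticAt.fun_comp (g := ψ) h1 (zz_an p))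
    have hzp : zz (κ p) = ψ (zz p) := hz.self_of_nhds
    have hκi : Function.Injective (fderiv ℂ κ p) := by
      refine inj_of_leftInv (lam := fun p => lst (ψ' (zz p))) hκa ?_ ?_
      · refine AnalyticAt.fun_comp (g := lst) (lst_an _) (AnalyticAt.fun_comp (g := ψ') ?_ (zz_an _))
        rw [hzp]; exact h2
      · filter_upwards [hz, hzc.eventually h3] with p' k1 k2
        rw [k1, k2, lst_zz]
    obtain ⟨θ, hθ, hpθ, -, hθs⟩ := H73.exists_localInv hκa hκi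
    -- the converse inclusion
    have hψp : Tendsto ψ (𝓝 (zz p)) (𝓝 (ψ (zz p))) := h1.continuousAt
    have hθt : κ p ∈ θ.target := by
      have := θ.map_source hpθ
      rwa [hθ] at this
    have hconv : ∀ᶠ w in 𝓝 (zz p), ψ w 0 = 0 → ψ w 1 = 0 → w 0 = 0 ∧ w 1 = 0 := by
      have k1 : ContinuousAt (fun w => lst (ψ w)) (zz p) :=
        ContinuousAt.comp (g := lst) lstc.continuousAt h1.continuousAt
      have k2 : ∀ᶠ w in 𝓝 (zz p), lst (ψ w) ∈ θ.target :=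
        k1.eventually (θ.open_target.mem_nhds hθt)
      have k3 : ContinuousAt (fun w => θ.symm (lst (ψ w))) (zz p) :=
        ContinuousAt.comp (g := θ.symm) (θ.continuousAt_symm hθt) k1
      have k4 : θ.symm (lst (ψ (zz p))) = p := by
        have : lst (ψ (zz p)) = θ p := by rw [hθ]
        rw [this, θ.left_inv hpθ]
      have k5 : ∀ᶠ w in 𝓝 (zz p), zz (κ (θ.symm (lst (ψ w)))) = ψ (zz (θ.symm (lst (ψ w)))) ∧
          ψ' (ψ (zz (θ.symm (lst (ψ w))))) = zz (θ.symm (lst (ψ w))) := by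
        have k6 : Tendsto (fun w => θ.symm (lst (ψ w))) (𝓝 (zz p)) (𝓝 p) := by
          have := k3.tendsto
          rwa [k4] at this
        exact k6.eventually (hz.and (hzc.eventually h3))
      filter_upwards [k2, k5, h3] with w k6 k7 k8 k9 k10
      have k11 : κ (θ.symm (lst (ψ w))) = lst (ψ w) := by
        have := θ.right_inv k6
        rwa [hθ] at this
      obtain ⟨k12, k13⟩ := k7
      rw [k11, zz_lst k9 k10] at k12
      rw [← k12, k8] at k13
      rw [k13]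
      exact ⟨rfl, rfl⟩
    have hdir : ∀ᶠ w in 𝓝 (zz p), w 0 = 0 → w 1 = 0 → Ψ w ∈ V l := by
      have k1 : Tendsto lst (𝓝 (zz p)) (𝓝 p) := by
        have := (lstc.continuousAt (x := zz p)).tendsto
        rwa [lst_zz] at this
      filter_upwards [k1.eventually hev] with w k2 k3 k4
      rwa [zz_lst k3 k4] at k2
    obtain ⟨r', hr', hb⟩ := Metric.eventually_nhds_iff_ball.1
      ((isOpen_ball.eventually_mem hp).and (h4.and (hconv.and hdir)))
    refine ⟨r', fun w hw => (hb w hw).1, ⟨hP.restrict rfl hr' fun w hw => (hb w hw).1, rfl,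
      fun w hw => ?_⟩⟩
    obtain ⟨-, ⟨k1, k2⟩, k3, k4⟩ := hb w hw
    exact ⟨fun k5 => k3 (k2.1 k5).1 (k2.1 k5).2, fun k5 => k4 k5.1 k5.2⟩
  · exfalso
    push Not at hgood
    have hthin : ∀ l, Cv 1 {p : Cm 2 | zz p ∈ ball c r ∧ Ψ (zz p) ∈ V l} := by
      intro l
      refine cv_of_local fun p hp => ?_
      obtain ⟨hpb, hpV⟩ := hp
      obtain ⟨ψ, ψ', h1, h2, h3, h4⟩ := htr l p hpb hpV
      have hzc : Tendsto zz (𝓝 p) (𝓝 (zz p)) := zzc.continuousAt
      set h : Cm 2 → ℂ := fun p => ψ (zz p) 1 with hh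
      have hha : AnalyticAt ℂ h p :=
        ((ContinuousLinearMap.proj (R := ℂ) (φ := fun _ : Fin 4 => ℂ) 1).analyticAt _).comp
          (AnalyticAt.fun_comp (g := ψ) h1 (zz_an p))
      have hiff : ∀ᶠ p' in 𝓝 p, Ψ (zz p') ∈ V l ↔ h p' = 0 := by
        filter_upwards [hzc.eventually h4] with p' k1
        rw [k1.2]
        exact ⟨fun k => k.2, fun k => ⟨k1.1.1 rfl, k⟩⟩
      have hne : ¬ ∀ᶠ p' in 𝓝 p, h p' = 0 := by
        intro hcon
        refine hgood l p hpb hpV ?_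
        filter_upwards [hcon, hiff] with p' k1 k2 using not_not.2 (k2.2 k1)
      obtain ⟨ρ, hρ, hb⟩ := Metric.eventually_nhds_iff_ball.1 (hha.eventually_analyticAt.and hiff)
      have han : AnalyticOnNhd ℂ h (ball p ρ) := fun p' hp' => (hb p' hp').1
      obtain ⟨Wd, g, hW, hg, hcov⟩ := H622.stB1 1 (ball p ρ) h isOpen_ball han (by
        intro p' hp' hcon
        refine hne ?_
        have k1 := han.eqOn_zero_of_preconnected_of_eventuallyEq_zero
          (convex_ball p ρ).isPreconnected hp' hcon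
        filter_upwards [ball_mem_nhds p hρ] with p'' k2 using k1 k2)
      refine ⟨ball p ρ, ball_mem_nhds p hρ, Wd, g, hW, fun k p' hp' => (hg k p' hp').1, ?_⟩
      rintro p' ⟨k1, k2, k3⟩
      exact hcov ⟨k1, (hb p' k1).2.1 k3⟩
    have hall : Cv 1 {p : Cm 2 | zz p ∈ ball c r} := by
      refine ((cv_par hP hT).union (cv_iUnion hthin)).mono ?_
      intro p hp
      by_cases h1 : ∃ l, Ψ (zz p) ∈ V l
      · obtain ⟨l, hl⟩ := h1
        exact Or.inr (mem_iUnion.2 ⟨l, hp, hl⟩)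
      · refine Or.inl ⟨hp, ⟨⟨(hP.mem _ hp).2 rfl, hO _ hp rfl rfl⟩, fun hcon => h1 ?_⟩⟩
        exact mem_iUnion.1 hcon
    refine not_cv_nhds (x := lst c) (by simp) ?_ hall
    refine zzc.continuousAt.preimage_mem_nhds ?_
    rw [hcc]
    exact ball_mem_nhds _ hP.pos

end Vale.Agent.P277.H60.Z

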