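import Vale.Agent.P277.H60.Z.ACh
import Vale.Agent.P277.H762.CL5

/-! P277, T3: `StFinV` -/

namespace Vale.Agent.P277.H60.Z

/-- (A6) -/
theorem stFinV : Vale.Agent.P277.H615.StFinV := stFinV_of Vale.Agent.P277.H762.stCl

end Vale.Agent.P277.H60.Z
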