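import Vale.Agent.P277.H60.Z.Ord0
import Vale.Agent.P277.H335.GL
import Vale.Agent.P277.Stmts13

/-!
# P277, T3, A6: the maps `H ⇢ X_j`
-/

open scoped Manifold ContDiff Topology
open Vale.Agent.P272.K Vale.Agent.P285.H281.FD Set Filter Metric

set_option linter.unusedSectionVars false

noncomputable section

namespace Vale.Agent.P277.H60.Z

open Vale.Agent.P277 Vale.Agent.P277.H762 Vale.Agent.P277.T3 Vale.Agent.P277.PH
open Vale.Agent.P277.H60.X

/-! ### analytic sets in manifolds -/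

section
variable {n : ℕ} {M : Type} [TopologicalSpace M] [ChartedSpace (Cm n) M] {S S' : Set M} {y : M}

theorem isAnAt_congr (h : IsAnAt n S y) (hS : ∀ᶠ y' in 𝓝 y, y' ∈ S' ↔ y' ∈ S) :
    IsAnAt n S' y := by
  obtain ⟨k, h, h1, h2⟩ := h
  exact ⟨k, h, h1, by filter_upwards [h2, hS] with y' h3 h4 using h4.trans h3⟩

theorem isAnAt_of_notMem (h : ∀ᶠ y' in 𝓝 y, y' ∉ S) : IsAnAt n S y := by
  refine ⟨1, fun _ _ => 1, fun _ => HolF.const 1, ?_⟩
  filter_upwards [h] with y' hy'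
  exact ⟨fun h1 => (hy' h1).elim, fun h1 => (one_ne_zero (h1 0)).elim⟩

theorem isAnAt_union (h : IsAnAt n S y) (h' : IsAnAt n S' y) : IsAnAt n (S ∪ S') y := by
  obtain ⟨k, f, h1, h2⟩ := h
  obtain ⟨k', f', h1', h2'⟩ := h'
  refine ⟨k * k', fun i y => f (finProdFinEquiv.symm i).1 y * f' (finProdFinEquiv.symm i).2 y,
    fun i => (h1 _).mul (h1' _), ?_⟩
  filter_upwards [h2, h2'] with y' h3 h3'
  constructor
  · rintro (h | h) i
    · rw [h3.1 h, zero_mul]
    · rw [h3'.1 h, mul_zero]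
  · intro h
    by_contra hcon
    have h4 : ¬ ∀ i, f i y' = 0 := fun h0 => hcon (Or.inl (h3.2 h0))
    have h5 : ¬ ∀ i, f' i y' = 0 := fun h0 => hcon (Or.inr (h3'.2 h0))
    push Not at h4 h5
    obtain ⟨i, hi⟩ := h4
    obtain ⟨j, hj⟩ := h5
    have h6 := h (finProdFinEquiv (i, j))
    simp only [Equiv.symm_apply_apply] at h6
    exact mul_ne_zero hi hj h6

theorem isAnAt_biUnion {κ : Type*} (s : Finset κ) {T : κ → Set M} (h : ∀ i ∈ s, IsAnAt n (T i) y) :
    IsAnAt n (⋃ i ∈ s, T i) y := by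
  classical
  induction s using Finset.induction_on with
  | empty => exact isAnAt_of_notMem (by simp)
  | insert a s ha ih =>
    rw [Finset.set_biUnion_insert]
    exact isAnAt_union (h a (Finset.mem_insert_self _ _))
      (ih fun i hi => h i (Finset.mem_insert_of_mem hi))

/-- smooth hypersurfaces of fourfolds -/
theorem isAnAt_hyp {Y : Type} [TopologicalSpace Y] [ChartedSpace (Cm 4) Y]
    [IsManifold 𝓘(ℂ, Cm 4) ω Y] {G : Set Y} (hG : T2.IsHyp G) (hc : IsClosed G) (y : Y) :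
    IsAnAt 4 G y := by
  by_cases hy : y ∈ G
  swap
  · exact isAnAt_of_notMem (hc.isOpen_compl.mem_nhds hy)
  obtain ⟨ξ, w₀, r, hξ, rfl⟩ := hG y hy
  have hw : w₀ ∈ ball w₀ r := mem_ball_self hξ.pos
  set e := chartAt (Cm 4) (ξ w₀) with he'
  have he : At e (ξ w₀) := ⟨chart_mem_atlas _ _, mem_chart_source _ _⟩
  obtain ⟨han, hdet⟩ := hξ.an w₀ hw e he
  obtain ⟨E, hE, hwE, hEan, hEsymm⟩ := H73.exists_localInv han
    (ContinuousLinearMap.toContinuousLinearEquivOfDetNeZero _ hdet).injective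
  have hEw : E w₀ = e (ξ w₀) := by rw [hE]
  refine ⟨1, fun _ y => E.symm (e y) 0, fun _ => ?_, ?_⟩
  · refine holF_of he ?_
    have h1 : AnalyticAt ℂ (fun z => E.symm z 0) (e (ξ w₀)) :=
      ((ContinuousLinearMap.proj (R := ℂ) (φ := fun _ : Fin 4 => ℂ) 0).analyticAt _).comp
        (hEsymm _ (by rw [← hEw]; exact E.map_source hwE))
    refine h1.congr ?_
    filter_upwards [e.open_target.mem_nhds (e.map_source he.2)] with z hz
    show _ = E.symm (e (e.symm z)) 0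
    rw [e.right_inv hz]
  · have h1 : ContinuousAt (fun y => E.symm (e y)) (ξ w₀) :=
      ContinuousAt.comp (g := E.symm) (E.continuousAt_symm (by rw [← hEw]; exact E.map_source hwE))
        (e.continuousAt he.2)
    have h2 : E.symm (e (ξ w₀)) = w₀ := by rw [← hEw, E.left_inv hwE]
    have h3 : ∀ᶠ y in 𝓝 (ξ w₀), E.symm (e y) ∈ ball w₀ r := by
      refine h1.eventually (isOpen_ball.mem_nhds ?_)
      show E.symm (e (ξ w₀)) ∈ ball w₀ r
      rw [h2]; exact hw
    have h4 : ∀ᶠ y in 𝓝 (ξ w₀), ξ (E.symm (e y)) ∈ e.source := by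
      have h30 : ContinuousAt (fun y => ξ (E.symm (e y))) (ξ w₀) :=
        ContinuousAt.comp (g := ξ) (f := fun y => E.symm (e y))
          (by rw [h2]; exact hξ.cont w₀ hw) h1
      refine h30.eventually (e.open_source.mem_nhds ?_)
      show ξ (E.symm (e (ξ w₀))) ∈ e.source
      rw [h2]; exact he.2
    have h5 : ∀ᶠ y in 𝓝 (ξ w₀), e y ∈ E.target :=
      (e.continuousAt he.2).eventually (E.open_target.mem_nhds (by
        rw [← hEw]; exact E.map_source hwE))
    filter_upwards [h3, h4, h5, e.open_source.mem_nhds he.2] with y h6 h7 h8 h9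
    have h10 : ξ (E.symm (e y)) = y := by
      refine e.injOn h7 h9 ?_
      have h11 : E (E.symm (e y)) = e y := E.right_inv h8
      rw [hE] at h11
      exact h11
    have h12 := hξ.mem _ h6
    rw [h10] at h12
    rw [h12]
    exact ⟨fun h _ => h, fun h => h 0⟩

end

/-! ### submanifolds -/

section
variable {Y H : Type} [TopologicalSpace Y] [ChartedSpace (Cm 4) Y] [TopologicalSpace H]
  [ChartedSpace (Cm 3) H] {ι : H → Y}

theorem holF_sub (hι : IsSub ι) {g : Y → ℂ} {y : H} (hg : HolF 4 g (ι y)) :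
    HolF 3 (fun y => g (ι y)) y := by
  intro e he
  set e' := chartAt (Cm 4) (ι y) with he''
  have he' : At e' (ι y) := ⟨chart_mem_atlas _ _, mem_chart_source _ _⟩
  have h1 := (hι.holo y e e' he he').1
  have h2 : AnalyticAt ℂ (fun z => g (e'.symm (e' (ι (e.symm z))))) (e y) := by
    refine AnalyticAt.fun_comp (g := fun z => g (e'.symm z))
      (f := fun z => e' (ι (e.symm z))) ?_ h1
    rw [e.left_inv he.2]
    exact hg e' he'
  refine h2.congr ?_
  have h3 : ∀ᶠ z in 𝓝 (e y), ι (e.symm z) ∈ e'.source := by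
    refine ev_symm he.2 (P := fun y => ι y ∈ e'.source) ?_
    exact hι.cont.continuousAt.eventually (e'.open_source.mem_nhds he'.2)
  filter_upwards [h3] with z hz
  rw [e'.left_inv hz]

theorem isAnAt_sub (hι : IsSub ι) {S : Set Y} {y : H} (h : IsAnAt 4 S (ι y)) :
    IsAnAt 3 (ι ⁻¹' S) y := by
  obtain ⟨k, f, h1, h2⟩ := h
  exact ⟨k, fun i y => f i (ι y), fun i => holF_sub hι (h1 i), hι.cont.continuousAt.eventually h2⟩

/-- thin sets in charts -/
theorem thinM_cv {n k : ℕ} {M : Type} [TopologicalSpace M] [ChartedSpace (Cm n) M] {S : Set M}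
    (h : ThinM n k S) {e : Chart n M} (he : e ∈ atlas (Cm n) M) :
    Cv k {z | z ∈ e.target ∧ e.symm z ∈ S} := by
  obtain ⟨Ω, g, h1, h2, h3⟩ := h
  refine ⟨fun l => {p | p ∈ Ω l ∧ g l p ∈ e.source}, fun l p => e (g l p), fun l => ?_,
    fun l p hp => ?_, fun z hz => ?_⟩
  · rw [isOpen_iff_mem_nhds]
    intro p hp
    filter_upwards [(h1 l).mem_nhds hp.1, (h2 l p hp.1).1.eventually
      (e.open_source.mem_nhds hp.2)] with q hq hq' using ⟨hq, hq'⟩
  · exact (h2 l p hp.1).2 e ⟨he, hp.2⟩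
  · obtain ⟨l, p, hp, hpz⟩ := mem_iUnion.1 (h3 hz.2)
    refine mem_iUnion.2 ⟨l, p, ⟨hp, by rw [hpz]; exact e.map_target hz.1⟩, ?_⟩
    show e (g l p) = z
    rw [hpz, e.right_inv hz.1]

/-- a submanifold is not contained in a thin set -/
theorem exists_sub_notMem (hι : IsSub ι) {T : Set Y} (hT : ThinM 4 2 T) {V : Set H}
    (hV : IsOpen V) (hne : V.Nonempty) : ∃ y ∈ V, ι y ∉ T := by
  obtain ⟨y, hy⟩ := hne
  set e := chartAt (Cm 3) y with he''
  have he : At e y := ⟨chart_mem_atlas _ _, mem_chart_source _ _⟩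
  set e' := chartAt (Cm 4) (ι y) with he'''
  have he' : At e' (ι y) := ⟨chart_mem_atlas _ _, mem_chart_source _ _⟩
  obtain ⟨h1, h2⟩ := hι.holo y e e' he he'
  have hN : {z | z ∈ e.target ∧ e.symm z ∈ V ∧ ι (e.symm z) ∈ e'.source} ∈ 𝓝 (e y) := by
    refine inter_mem (e.open_target.mem_nhds (e.map_source he.2)) (inter_mem ?_ ?_)
    · exact ev_symm he.2 (hV.mem_nhds hy)
    · refine ev_symm he.2 (P := fun y => ι y ∈ e'.source) ?_
      exact hι.cont.continuousAt.eventually (e'.open_source.mem_nhds he'.2)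
  obtain ⟨z, ⟨hz1, hz2, hz3⟩, hz4⟩ := exists_notMem_of_cv (by norm_num) h1 h2
    (thinM_cv hT he'.1) hN
  refine ⟨e.symm z, hz2, fun hcon => hz4 ⟨e'.map_source hz3, ?_⟩⟩
  rw [e'.left_inv hz3]
  exact hcon

/-- the preimages of thin sets under open embeddings -/
theorem thinM_of_emb [Nonempty Y] {X : CSp} {O : Set Y} {v : Y → X.pt} (hv : IsOpenEmb X O v) {k : ℕ}
    {T : Set X.pt} (hT : DimLe X k T) : ThinM 4 k {y | y ∈ O ∧ v y ∈ T} := by
  obtain ⟨y₀⟩ := ‹Nonempty Y›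
  obtain ⟨Ω, g, h1, h2, h3⟩ := hT
  have hvO : IsOpen (v '' O) := hv.isOpen_image
  refine ⟨fun l => {p | p ∈ Ω l ∧ g l p ∈ v '' O}, fun l p => hv.inv y₀ (g l p), fun l => ?_,
    fun l p hp => ⟨?_, fun e he => ?_⟩, fun y hy => ?_⟩
  · rw [isOpen_iff_mem_nhds]
    intro p hp
    filter_upwards [(h1 l).mem_nhds hp.1, (h2 l p hp.1).1.eventually (hvO.mem_nhds hp.2)]
      with q hq hq' using ⟨hq, hq'⟩
  · obtain ⟨y, hy, hyp⟩ := hp.2
    refine ContinuousAt.comp (g := hv.inv y₀) ?_ (h2 l p hp.1).1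
    rw [← hyp]
    exact hv.inv_continuousAt y₀ hy
  · obtain ⟨y, hy, hyp⟩ := hp.2
    have hy' : hv.inv y₀ (g l p) = y := by rw [← hyp, hv.inv_apply y₀ hy]
    refine AnalyticAt.pi fun i => ?_
    refine (h2 l p hp.1).2 (fun x => e (hv.inv y₀ x) i) ?_
    rw [← hyp]
    exact hv.hol_chart y₀ hy (by rw [← hy']; exact he) i
  · obtain ⟨l, p, hp, hpy⟩ := mem_iUnion.1 (h3 hy.2)
    refine mem_iUnion.2 ⟨l, p, ⟨hp, by rw [hpy]; exact mem_image_of_mem _ hy.1⟩, ?_⟩
    show hv.inv y₀ (g l p) = y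
    rw [hpy, hv.inv_apply y₀ hy.1]

end

/-- a proper analytic subset of a connected threefold is nowhere dense -/
theorem dense_of_an {H : Type} [TopologicalSpace H] [ChartedSpace (Cm 3) H]
    [PreconnectedSpace H] {S : Set H} (hS : ∀ y, IsAnAt 3 S y)
    (hne : Sᶜ.Nonempty) : Dense Sᶜ := by
  rw [← interior_eq_empty_iff_dense_compl]
  by_contra hcon
  have hcl : IsClopen (interior S) := by
    refine ⟨⟨?_⟩, isOpen_interior⟩
    rw [isOpen_iff_mem_nhds]
    intro y hy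
    by_contra hcon2
    have hyc : y ∈ closure (interior S) := by
      rw [mem_closure_iff_frequently]
      intro h
      refine hcon2 ?_
      filter_upwards [h] with y' hy' using hy'
    refine hy ?_
    obtain ⟨k, h, hh, hev⟩ := hS y
    set e := chartAt (Cm 3) y with he
    have hAt : At e y := at_chartAt y
    have h1 : ∀ᶠ z in 𝓝 (e y), z ∈ e.target ∧ (e.symm z ∈ S ↔ ∀ i, h i (e.symm z) = 0) ∧
        ∀ i, AnalyticAt ℂ (fun z => h i (e.symm z)) z := by
      refine (e.open_target.eventually_mem (e.map_source hAt.2)).and ((ev_symm hAt.2 hev).and ?_)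
      exact eventually_all.2 fun i => (hh i e hAt).eventually_analyticAt
    obtain ⟨r, hr, hball⟩ := Metric.eventually_nhds_iff_ball.1 h1
    have hNo : IsOpen (e.source ∩ e ⁻¹' ball (e y) r) := e.isOpen_inter_preimage isOpen_ball
    obtain ⟨y', ⟨hy'e, hy'b⟩, hy'S⟩ := mem_closure_iff.1 hyc _ hNo ⟨hAt.2, mem_ball_self hr⟩
    have h0 : ∀ i, ∀ z ∈ ball (e y) r, h i (e.symm z) = 0 := by
      intro i
      have han : AnalyticOnNhd ℂ (fun z => h i (e.symm z)) (ball (e y) r) :=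
        fun z hz => (hball z hz).2.2 i
      refine han.eqOn_zero_of_preconnected_of_eventuallyEq_zero (convex_ball _ _).isPreconnected
        hy'b ?_
      have h3 : ∀ᶠ z in 𝓝 (e y'), e.symm z ∈ S :=
        ev_symm hy'e (mem_interior_iff_mem_nhds.1 hy'S)
      filter_upwards [h3, isOpen_ball.mem_nhds hy'b] with z hz hz'
      exact (hball z hz').2.1.1 hz i
    rw [mem_interior_iff_mem_nhds]
    refine mem_of_superset (hNo.mem_nhds ⟨hAt.2, mem_ball_self hr⟩) ?_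
    rintro y'' ⟨h4, h5⟩
    have h6 := (hball (e y'') h5).2.1
    rw [e.left_inv h4] at h6
    refine h6.2 fun i => ?_
    have h7 := h0 i (e y'') h5
    rwa [e.left_inv h4] at h7
  rcases isClopen_iff.1 hcl with h | h
  · exact hcon h
  · obtain ⟨y, hy⟩ := hne
    exact hy (interior_subset (h ▸ mem_univ y))

/-! ### the chain -/

section
variable {Y H : Type} [TopologicalSpace Y] [T2Space Y] [ChartedSpace (Cm 4) Y]
  [IsManifold 𝓘(ℂ, Cm 4) ω Y] [TopologicalSpace H] [T2Space H] [CompactSpace H]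
  [ChartedSpace (Cm 3) H] [IsManifold 𝓘(ℂ, Cm 3) ω H] {ι : H → Y}
  {X Z : ℕ → CSp} {f : ∀ j, (X j).pt → (Z j).pt} {f' : ∀ j, (X (j + 1)).pt → (Z j).pt}
  {A : ∀ j, Set (Z j).pt} {O : ℕ → Set Y} {v : ∀ j, Y → (X j).pt}

/-- `ι⁻¹ O j` is dense -/
theorem dense_O (hι : IsSub ι) (hsm : ∀ j, IsSmall (X j) (Z j) (f j) (A j))
    (hs : IsSeq X Z f f' A O v) (hd : Dense (ι ⁻¹' O 0)) : ∀ j, Dense (ι ⁻¹' O j) := by
  intro j
  induction j with
  | zero => exact hd
  | succ j ih =>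
    rw [dense_iff_inter_open]
    intro V hV hne
    obtain ⟨y, hy, hyO⟩ := ih.inter_open_nonempty V hV hne
    have hYn : Nonempty Y := ⟨ι y⟩
    have hV' : IsOpen (V ∩ ι ⁻¹' O j) := hV.inter ((hs.emb j).isOpen.preimage hι.cont)
    obtain ⟨y', ⟨hy', hyO'⟩, hyT⟩ := exists_sub_notMem hι
      (thinM_of_emb (hs.emb j) (hsm j).dim) hV' ⟨y, hy, hyO⟩
    refine ⟨y', hy', ?_⟩
    show ι y' ∈ O (j + 1)
    rw [hs.step]
    exact ⟨hyO', fun hcon => hyT ⟨hyO', hcon⟩⟩

/-- the maps `H ⇢ X j` -/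
theorem exists_chain (hι : IsSub ι)
    (hfl : ∀ j, ∃ L L', IsFlip (X j) (Z j) (X (j + 1)) (f j) (f' j) (A j) L L')
    (hs : IsSeq X Z f f' A O v) (hd : Dense (ι ⁻¹' O 0))
    (h0 : ∃ q₀, QMap (X 0) ∅ q₀ ∧ ∀ y, ι y ∈ O 0 → q₀ y = v 0 (ι y)) :
    ∀ j, ∃ (Θ : Set H) (q : H → (X j).pt), QMap (X j) Θ q ∧ (∀ y ∈ Θ, ι y ∉ O j) ∧
      ∀ y, ι y ∈ O j → q y = v j (ι y) := by
  have hH : Nonempty H := by
    obtain ⟨q₀, hq₀, -⟩ := h0
    exact hq₀.thin.nonempty
  have : SecondCountableTopology H := ChartedSpace.secondCountable_of_sigmaCompact (Cm 3) H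
  have hsm : ∀ j, IsSmall (X j) (Z j) (f j) (A j) := fun j => by
    obtain ⟨L, L', h⟩ := hfl j
    exact h.small
  have hdO := dense_O hι hsm hs hd
  intro j
  induction j with
  | zero =>
    obtain ⟨q₀, hq₀, h1⟩ := h0
    exact ⟨∅, q₀, hq₀, fun y hy => hy.elim, h1⟩
  | succ j ih =>
    obtain ⟨Θ, q, hq, hΘ, hqv⟩ := ih
    obtain ⟨L, L', hF⟩ := hfl j
    have hgood : ∀ y, ι y ∈ O (j + 1) → y ∉ Θ ∧ f j (q y) ∉ A j := by
      intro y hy
      rw [hs.step] at hy
      refine ⟨fun hcon => hΘ y hcon hy.1, fun hcon => hy.2 ?_⟩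
      show f j (v j (ι y)) ∈ A j
      rw [← hqv y hy.1]
      exact hcon
    obtain ⟨Θ', q', hq', hΘΘ', hff, hΘ'⟩ := H335.GL.stLift H (X j) (Z j) (X (j + 1)) (f j) (f' j)
      (A j) L L' hF Θ q hq ((hdO (j + 1)).mono fun y hy => hgood y hy)
    refine ⟨Θ', q', hq', fun y hy hyO => ?_, fun y hyO => ?_⟩
    · obtain ⟨h1, h2⟩ := hgood y hyO
      exact hΘ' y h1 h2 hy
    · obtain ⟨h1, h2⟩ := hgood y hyO
      have h3 : y ∉ Θ' := hΘ' y h1 h2
      have h4 := hff y h3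
      have h5 := hs.comp j (ι y) hyO
      have hyO' : ι y ∈ O j := by
        rw [hs.step] at hyO; exact hyO.1
      rw [hqv y hyO'] at h4 h2
      refine hF.small'.inj _ _ ?_ ?_
      · rw [h5]; exact h2
      · rw [h4, h5]

end

end Vale.Agent.P277.H60.Z
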