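import Vale.Agent.P277.H60.Z.Chain
import Vale.Agent.P277.H60.Z.Main0

/-!
# P277, T3, A6: finiteness of the contracted surfaces
-/

open scoped Manifold ContDiff Topology
open Vale.Agent.P272.K Vale.Agent.P285.H281.FD Set Filter Metric

set_option linter.unusedSectionVars false

noncomputable section

namespace Vale.Agent.P277.H60.Z

open Vale.Agent.P277 Vale.Agent.P277.H762 Vale.Agent.P277.T3 Vale.Agent.P277.PH
open Vale.Agent.P277.H60.X

section
variable {H : Type} [TopologicalSpace H] [ChartedSpace (Cm 3) H] [IsManifold 𝓘(ℂ, Cm 3) ω H]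
  {C E : Set H} {y : H}

theorem isHypAt_congr (h : IsHypAt 3 C y) (hE : ∀ᶠ y' in 𝓝 y, y' ∈ E ↔ y' ∈ C) :
    IsHypAt 3 E y := by
  obtain ⟨e, he, g, hg, hg0, hgd, hS⟩ := h
  exact ⟨e, he, g, hg, hg0, hgd, by filter_upwards [hS, hE] with y' h1 h2 using h2.trans h1⟩

theorem isHypAt_open (h : IsHypAt 3 C y) : ∀ᶠ y' in 𝓝 y, y' ∈ C → IsHypAt 3 C y' := by
  obtain ⟨e, he, g, hg, hg0, hgd, hS⟩ := h
  have h1 : ∀ᶠ z in 𝓝 (e y), fderiv ℂ g z ≠ 0 := hg.fderiv.continuousAt.eventually_ne hgd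
  filter_upwards [e.open_source.mem_nhds he.2,
    (e.continuousAt he.2).eventually hg.eventually_analyticAt, (e.continuousAt he.2).eventually h1,
    hS.eventually_nhds] with y' h2 h3 h4 h5 hy'
  exact ⟨e, ⟨he.1, h2⟩, g, h3, h5.self_of_nhds.1 hy', h4, h5⟩

theorem isHypAt_mem (h : IsHypAt 3 C y) : y ∈ C := by
  obtain ⟨e, he, g, hg, hg0, hgd, hS⟩ := h
  exact hS.self_of_nhds.2 hg0

/-- smooth hypersurfaces are locally connected -/
theorem exists_conn (h : IsHypAt 3 E y) : ∃ N : Set H, IsOpen N ∧ y ∈ N ∧ IsPreconnected (E ∩ N) := by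
  obtain ⟨q, D, w, hq, hw, rfl⟩ := exists_sc h
  obtain ⟨r, hr, hrD⟩ := Metric.isOpen_iff.1 hq.isOpen w hw
  refine ⟨q '' ball w r, hq.openMap _ hrD isOpen_ball, ⟨w, mem_ball_self hr, rfl⟩, ?_⟩
  have h1 : E ∩ q '' ball w r = q '' (ball w r ∩ {w | w 0 = 0}) := by
    ext y'
    constructor
    · rintro ⟨hE, w', hw', rfl⟩
      exact ⟨w', ⟨hw', (hq.mem w' (hrD hw')).1 hE⟩, rfl⟩
    · rintro ⟨w', ⟨hw', h0⟩, rfl⟩
      exact ⟨(hq.mem w' (hrD hw')).2 h0, w', hw', rfl⟩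
  rw [h1]
  have h2 : Convex ℝ (ball w r ∩ {w : Cm 3 | w 0 = 0}) := by
    refine (convex_ball w r).inter ?_
    intro a ha b hb s t _ _ _
    show (s • a + t • b) 0 = 0
    have h3 : a 0 = 0 := ha
    have h4 : b 0 = 0 := hb
    simp [h3, h4]
  exact h2.isPreconnected.image q fun z hz => (hq.cont z (hrD hz.1)).continuousWithinAt

theorem comp_eventually (hE : ∀ y ∈ E, IsHypAt 3 E y) {c : H} (hy : y ∈ connectedComponentIn E c) :
    ∀ᶠ y' in 𝓝 y, y' ∈ connectedComponentIn E c ↔ y' ∈ E := by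
  have hyE : y ∈ E := connectedComponentIn_subset _ _ hy
  obtain ⟨N, hN, hyN, hc⟩ := exists_conn (hE y hyE)
  filter_upwards [hN.mem_nhds hyN] with y' hy'
  refine ⟨fun h => connectedComponentIn_subset _ _ h, fun h => ?_⟩
  rw [connectedComponentIn_eq hy]
  exact hc.subset_connectedComponentIn ⟨hyE, hyN⟩ inter_subset_left ⟨h, hy'⟩

end

section
variable {H : Type} [TopologicalSpace H] [T2Space H] [CompactSpace H] [ChartedSpace (Cm 3) H]
  [IsManifold 𝓘(ℂ, Cm 3) ω H] {C Θ : Set H}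

/-- finitely many components -/
theorem fin_core (hCl : StCl) (hC : IsClosed C) (hΘ : IsClosed Θ) (hΘt : ThinM 3 1 Θ)
    (han : ∀ y ∉ Θ, IsAnAt 3 C y) (hd : Dense Cᶜ) :
    ∃ (K : ℕ) (V : Fin K → Set H), (∀ l, IsPreconnected (V l)) ∧
      (∀ l, ∀ y ∈ V l, IsHypAt 3 (V l) y) ∧ (∀ l, V l ⊆ C) ∧ ThinM 3 1 (C \ ⋃ l, V l) := by
  have hH : Nonempty H := hΘt.nonempty
  have : SecondCountableTopology H := ChartedSpace.secondCountable_of_sigmaCompact (Cm 3) H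
  have hX : Nonempty (XH 3 H).pt := inferInstanceAs (Nonempty H)
  set E : Set H := {y | y ∉ Θ ∧ IsHypAt 3 C y} with hEdef
  have hEC : E ⊆ C := fun y hy => isHypAt_mem hy.2
  set Θ' : Set H := Θ ∪ C \ E with hΘ'
  have hbad : ThinM 3 1 {y | y ∈ Θᶜ ∧ y ∈ C ∧ ¬ IsHypAt 3 C y} :=
    H335.HY.stHyp H Θᶜ C hΘ.isOpen_compl (fun y hy => han y hy)
      (fun y _ => by rw [hd.closure_eq]; trivial)
  have hΘ't : ThinM 3 1 Θ' := by
    refine (hΘt.union hbad).mono ?_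
    rintro y (hy | ⟨hyC, hyE⟩)
    · exact Or.inl hy
    · by_cases h : y ∈ Θ
      · exact Or.inl h
      · exact Or.inr ⟨h, hyC, fun h1 => hyE ⟨h, h1⟩⟩
  have hΘ'c : IsClosed Θ' := by
    rw [← isOpen_compl_iff, isOpen_iff_mem_nhds]
    intro y hy
    have h1 : y ∉ Θ := fun h => hy (Or.inl h)
    by_cases hyC : y ∈ C
    · have h2 : y ∈ E := by
        by_contra hcon
        exact hy (Or.inr ⟨hyC, hcon⟩)
      filter_upwards [hΘ.isOpen_compl.mem_nhds h1, isHypAt_open h2.2] with y' h3 h4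
      rintro (h5 | ⟨h5, h6⟩)
      · exact h3 h5
      · exact h6 ⟨h3, h4 h5⟩
    · filter_upwards [hΘ.isOpen_compl.mem_nhds h1, hC.isOpen_compl.mem_nhds hyC] with y' h3 h4
      rintro (h5 | ⟨h5, h6⟩)
      · exact h3 h5
      · exact h4 h5
  have hdis : Disjoint E Θ' := by
    rw [Set.disjoint_left]
    rintro y hy (h | h)
    · exact hy.1 h
    · exact h.2 hy
  have hun : E ∪ Θ' = C ∪ Θ := by
    ext y
    constructor
    · rintro (h | h | h)
      · exact Or.inl (hEC h)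
      · exact Or.inr h
      · exact Or.inl h.1
    · rintro (h | h)
      · by_cases h1 : y ∈ E
        · exact Or.inl h1
        · exact Or.inr (Or.inr ⟨h, h1⟩)
      · exact Or.inr (Or.inl h)
  -- near points of `E`, `E = C`
  have hEloc : ∀ y ∈ E, ∀ᶠ y' in 𝓝 y, y' ∈ E ↔ y' ∈ C := by
    intro y hy
    filter_upwards [hΘ.isOpen_compl.mem_nhds hy.1, isHypAt_open hy.2] with y' h3 h4
    exact ⟨fun h => hEC h, fun h => ⟨h3, h4 h⟩⟩
  have hEhyp : ∀ y ∈ E, IsHypAt 3 E y := fun y hy => isHypAt_congr hy.2 (hEloc y hy)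
  obtain ⟨L, s, hL, hs, hz⟩ := hCl H Θ' E hΘ'c hΘ't hdis
    (by rw [hun]; exact hC.union hΘ) hEhyp
  set S : Set H := closure E with hS
  have hSan : ∀ y, IsAnAt 3 S y := by
    intro y
    obtain ⟨i, hi⟩ := hL.cover y
    refine ⟨1, fun _ => s i, fun _ e he => ?_, ?_⟩
    · exact (hs.holo i e y he hi).analyticAt
    · filter_upwards [(hL.isOpen i).mem_nhds hi] with y' hy'
      rw [← (hz i y' hy').1]
      exact ⟨fun h _ => h, fun h => h 0⟩
  have hSd : Dense Sᶜ := by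
    intro y
    obtain ⟨i, hi⟩ := hL.cover y
    rw [mem_closure_iff_frequently]
    refine ((hz i y hi).2.and_eventually ((hL.isOpen i).eventually_mem hi)).mono ?_
    rintro y' ⟨h1, h2⟩ h3
    exact h1 ((hz i y' h2).1.2 h3)
  have hSE : S \ Θ' = E := by
    ext y
    constructor
    · rintro ⟨h1, h2⟩
      have h3 : y ∈ E ∪ Θ' := by
        have h4 : closure E ⊆ E ∪ Θ' :=
          closure_minimal subset_union_left (by rw [hun]; exact hC.union hΘ)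
        exact h4 h1
      exact h3.resolve_right h2
    · intro h
      exact ⟨subset_closure h, fun h1 => Set.disjoint_left.1 hdis h h1⟩
  have hST : S \ (S ∩ Θ') = E := by
    rw [← hSE]
    ext y
    exact ⟨fun h => ⟨h.1, fun h1 => h.2 ⟨h.1, h1⟩⟩, fun h => ⟨h.1, fun h1 => h.2 h1.2⟩⟩
  have hS2 : DimLe (XH 3 H) 2 S := dimLe_of_an H622.stB1 hSan hSd
  have hT1 : DimLe (XH 3 H) 1 (S ∩ Θ') := thinM_iff.1 (hΘ't.mono inter_subset_right)
  have hTc : IsClosed (S ∩ Θ') := isClosed_closure.inter hΘ'c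
  have hsurf : ∀ x ∈ S \ (S ∩ Θ'), IsSurfX (XH 3 H) S x := by
    intro x hx
    rw [hST] at hx
    have h1 : IsHypAt 3 S x := by
      refine isHypAt_congr (hEhyp x hx) ?_
      have h2 : x ∉ Θ' := Set.disjoint_left.1 hdis hx
      filter_upwards [hΘ'c.isOpen_compl.mem_nhds h2] with y' h3
      refine ⟨fun h => ?_, fun h => subset_closure h⟩
      rw [← hSE]
      exact ⟨h, h3⟩
    obtain ⟨q, D, w, hq, hw, rfl⟩ := exists_sc h1
    exact hq.surf hw ((hq.mem w hw).1 (subset_closure hx))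
  obtain ⟨K, c, hcomp⟩ : ∃ (K : ℕ) (c : Fin K → H), ∀ x ∈ S \ (S ∩ Θ'), ∃ i,
      x ∈ connectedComponentIn (S \ (S ∩ Θ')) (c i) :=
    stL3 (XH 3 H) S (S ∩ Θ') (isAn_of hSan) hS2 hTc inter_subset_left hT1 hsurf
  rw [hST] at hcomp
  refine ⟨K, fun l => connectedComponentIn E (c l), fun l => isPreconnected_connectedComponentIn,
    fun l y hy => ?_, fun l => (connectedComponentIn_subset _ _).trans hEC, hΘ't.mono ?_⟩
  · exact isHypAt_congr (hEhyp y (connectedComponentIn_subset _ _ hy)) (comp_eventually hEhyp hy)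
  · rintro y ⟨hyC, hyV⟩
    refine Or.inr ⟨hyC, fun hyE => hyV ?_⟩
    obtain ⟨i, hi⟩ := hcomp y hyE
    exact mem_iUnion.2 ⟨i, hi⟩

end

/-! ### the contracted surfaces -/

section
variable {Y H : Type} [TopologicalSpace Y] [T2Space Y] [ChartedSpace (Cm 4) Y]
  [IsManifold 𝓘(ℂ, Cm 4) ω Y] [TopologicalSpace H] [T2Space H] [CompactSpace H]
  [ChartedSpace (Cm 3) H] [IsManifold 𝓘(ℂ, Cm 3) ω H] {ι : H → Y}

/-- the start of the chain -/
theorem chain_zero [Nonempty H] {W X : CSp} {r : ℕ} {v₀ : Y → W.pt} {p : W.pt → X.pt} {P : Bd W.pt}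
    {G : Fin r → Set Y} (hι : IsSub ι) (hr : T2.IsRes v₀ p P G) :
    QMap X ∅ fun y => p (v₀ (ι y)) := by
  refine ⟨isClosed_empty, ?_, fun y _ => ?_, fun y _ g hg => ?_⟩
  · exact ⟨fun _ => ∅, fun _ _ => Classical.arbitrary H, fun _ => isOpen_empty,
      fun _ _ h => h.elim, empty_subset _⟩
  · exact hr.cont.continuousAt.comp ((hr.emb.continuousAt (mem_univ _)).comp hι.cont.continuousAt)
  · refine holF_sub hι (g := fun y => g (p (v₀ y))) ?_
    intro e he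
    exact (hr.emb.hol (ι y) (mem_univ _) e he (g ∘ p)).1 (hr.holo _ g hg)

theorem isAn_exc {W X : CSp} {r : ℕ} {v₀ : Y → W.pt} {p : W.pt → X.pt} {P : Bd W.pt}
    {G : Fin r → Set Y} (hι : IsSub ι) (hr : T2.IsRes v₀ p P G) (y : H) :
    IsAnAt 3 (ι ⁻¹' ⋃ l, G l) y := by
  refine isAnAt_sub hι ?_
  have h1 := isAnAt_biUnion (n := 4) (y := ι y) Finset.univ (T := G)
    fun l _ => isAnAt_hyp (hr.hyp l) (hr.closed l) _
  simpa using h1

variable {X Z : ℕ → CSp} {f : ∀ j, (X j).pt → (Z j).pt} {f' : ∀ j, (X (j + 1)).pt → (Z j).pt}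
  {A : ∀ j, Set (Z j).pt} {O : ℕ → Set Y} {v : ∀ j, Y → (X j).pt}

/-- the preimages of the centres are analytic -/
theorem isAnAt_pre {j : ℕ} (hsm : IsSmall (X j) (Z j) (f j) (A j)) {Θ : Set H} {q : H → (X j).pt}
    (hq : QMap (X j) Θ q) {y : H} (hy : y ∉ Θ) : IsAnAt 3 {y | y ∉ Θ ∧ f j (q y) ∈ A j} y := by
  obtain ⟨k, h, h1, h2⟩ := hsm.an (f j (q y)) (mem_univ _)
  refine ⟨k, fun i y => h i (f j (q y)), fun i => ?_, ?_⟩
  · exact hq.holo y hy (h i ∘ f j) (hsm.holo _ _ (h1 i))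
  · have h3 : ContinuousAt (fun y => f j (q y)) y := hsm.cont.continuousAt.comp (hq.cont y hy)
    filter_upwards [h3.eventually h2, hq.closed.isOpen_compl.mem_nhds hy] with y' h4 h5
    rw [← h4]
    exact ⟨fun h => h.2, fun h => ⟨h5, h⟩⟩

/-- (A6) on `H` -/
theorem a6_H [PreconnectedSpace H] (hCl : StCl) {W : CSp} {r : ℕ} {v₀ : Y → W.pt}
    {p : W.pt → (X 0).pt} {P : Bd W.pt} {G : Fin r → Set Y} (hι : IsSub ι) (hr : T2.IsRes v₀ p P G)
    (hfl : ∀ j, ∃ L L', IsFlip (X j) (Z j) (X (j + 1)) (f j) (f' j) (A j) L L')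
    (hs : IsSeq X Z f f' A O v) (hO : O 0 = (⋃ l, G l)ᶜ) (hv : v 0 = fun y => p (v₀ y))
    (hne : ¬ range ι ⊆ ⋃ l, G l)
    (hT : ∃ J, ∀ j ≥ J, ThinM 3 1 (ι ⁻¹' O j \ ι ⁻¹' O (j + 1))) :
    ∃ (K : ℕ) (V : Fin K → Set H), (∀ l, IsPreconnected (V l)) ∧
      (∀ l, ∀ y ∈ V l, IsHypAt 3 (V l) y) ∧ ∀ j, ThinM 3 1 ((ι ⁻¹' O j)ᶜ \ ⋃ l, V l) := by
  obtain ⟨y₀, hy₀⟩ : ∃ y₀ : H, ι y₀ ∉ ⋃ l, G l := by
    by_contra hcon
    push Not at hcon
    exact hne (by rintro _ ⟨y, rfl⟩; exact hcon y)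
  have hH : Nonempty H := ⟨y₀⟩
  have hsm : ∀ j, IsSmall (X j) (Z j) (f j) (A j) := fun j => by
    obtain ⟨L, L', h⟩ := hfl j
    exact h.small
  have h00 : ι ⁻¹' O 0 = (ι ⁻¹' ⋃ l, G l)ᶜ := by rw [hO, preimage_compl]
  have hd0 : Dense (ι ⁻¹' O 0) := by
    rw [h00]
    exact dense_of_an (isAn_exc hι hr) ⟨y₀, hy₀⟩
  have hdO := dense_O hι hsm hs hd0
  have hch := exists_chain hι hfl hs hd0 ⟨_, chain_zero hι hr, fun y _ => by rw [hv]⟩
  choose Θ q hq hΘ hqv using hch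
  have hstep : ∀ j, (ι ⁻¹' O (j + 1))ᶜ = (ι ⁻¹' O j)ᶜ ∪ {y | y ∉ Θ j ∧ f j (q j y) ∈ A j} := by
    intro j
    ext y
    constructor
    · intro h
      by_cases h1 : ι y ∈ O j
      · refine Or.inr ⟨fun h2 => hΘ j y h2 h1, ?_⟩
        by_contra h3
        refine h ?_
        show ι y ∈ O (j + 1)
        rw [hs.step]
        refine ⟨h1, fun h4 => h3 ?_⟩
        rw [hqv j y h1]
        exact h4
      · exact Or.inl h1
    · rintro (h | ⟨h1, h2⟩) h3
      · have h4 : ι y ∈ O (j + 1) := h3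
        rw [hs.step] at h4
        exact h h4.1
      · have h4 : ι y ∈ O (j + 1) := h3
        rw [hs.step] at h4
        rw [hqv j y h4.1] at h2
        exact h4.2 h2
  have hmono : ∀ j, (ι ⁻¹' O j)ᶜ ⊆ (ι ⁻¹' O (j + 1))ᶜ := fun j => by
    rw [hstep]; exact subset_union_left
  have hmono' : ∀ i j, i ≤ j → (ι ⁻¹' O i)ᶜ ⊆ (ι ⁻¹' O j)ᶜ := fun i j h =>
    monotone_nat_of_le_succ (f := fun j => (ι ⁻¹' O j)ᶜ) hmono h
  have han : ∀ j, ∀ y, (∀ i < j, y ∉ Θ i) → IsAnAt 3 (ι ⁻¹' O j)ᶜ y := by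
    intro j
    induction j with
    | zero =>
      intro y _
      rw [h00, compl_compl]
      exact isAn_exc hι hr y
    | succ j ih =>
      intro y hy
      rw [hstep]
      exact isAnAt_union (ih y fun i hi => hy i (hi.trans (Nat.lt_succ_self j)))
        (isAnAt_pre (hsm j) (hq j) (hy j (Nat.lt_succ_self j)))
  obtain ⟨J, hJ⟩ := hT
  have hΘJ : IsClosed (⋃ i : Fin J, Θ i) := isClosed_iUnion_of_finite fun i => (hq i).closed
  have hΘJt : ThinM 3 1 (⋃ i : Fin J, Θ i) := H335.HY.thinM_iUnion fun i => (hq i).thin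
  have hCJ : IsClosed (ι ⁻¹' O J)ᶜ := ((hs.emb J).isOpen.preimage hι.cont).isClosed_compl
  obtain ⟨K, V, hV1, hV2, -, hV3⟩ := fin_core hCl hCJ hΘJ hΘJt (fun y hy => han J y fun i hi hcon =>
    hy (mem_iUnion.2 ⟨⟨i, hi⟩, hcon⟩)) (by rw [compl_compl]; exact hdO J)
  refine ⟨K, V, hV1, hV2, fun j => ?_⟩
  have h1 : ∀ n, ThinM 3 1 ((ι ⁻¹' O (J + n))ᶜ \ ⋃ l, V l) := by
    intro n
    induction n with
    | zero => exact hV3
    | succ n ih =>
      refine (ih.union (hJ (J + n) (Nat.le_add_right _ _))).mono ?_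
      rintro y ⟨h1, h2⟩
      by_cases h3 : ι y ∈ O (J + n)
      · exact Or.inr ⟨h3, h1⟩
      · exact Or.inl ⟨h3, h2⟩
  refine (h1 j).mono ?_
  rintro y ⟨h2, h3⟩
  exact ⟨hmono' j (J + j) (Nat.le_add_left _ _) h2, h3⟩

end

end Vale.Agent.P277.H60.Z
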