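import Vale.Agent.P277.H60.Z.A6
import Vale.Agent.P277.H615.R.AdDef

/-!
# P277, T3, A6: adapted charts, `StFinV`
-/

open scoped Manifold ContDiff Topology
open Vale.Agent.P272.K Vale.Agent.P285.H281.FD Set Filter Metric

set_option linter.unusedSectionVars false

noncomputable section

namespace Vale.Agent.P277.H60.Z

open Vale.Agent.P277 Vale.Agent.P277.H762 Vale.Agent.P277.T3 Vale.Agent.P277.PH
open Vale.Agent.P277.H60.X

/-- maps with a left inverse are immersions -/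
theorem inj_of_leftInv {m k : ℕ} {F : Cm m → Cm k} {lam : Cm k → Cm m} {p : Cm m}
    (hF : AnalyticAt ℂ F p) (hl : AnalyticAt ℂ lam (F p)) (h : ∀ᶠ q in 𝓝 p, lam (F q) = q) :
    Function.Injective (fderiv ℂ F p) := by
  have h1 : (fun q => lam (F q)) =ᶠ[𝓝 p] (id : Cm m → Cm m) := h
  have h2 : fderiv ℂ (fun q => lam (F q)) p = (fderiv ℂ lam (F p)).comp (fderiv ℂ F p) :=
    fderiv_comp p hl.differentiableAt hF.differentiableAt
  rw [h1.fderiv_eq, fderiv_id] at h2
  intro v v' hv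
  have h3 : ∀ v, v = (fderiv ℂ lam (F p)) (fderiv ℂ F p v) := fun v => congrArg (fun T => T v) h2
  rw [h3 v, h3 v', hv]

theorem det_ne_zero_of_inj {m : ℕ} {T : Cm m →L[ℂ] Cm m} (h : Function.Injective T) : T.det ≠ 0 := by
  intro h0
  have h1 : LinearMap.det (T : Cm m →ₗ[ℂ] Cm m) = 0 := h0
  have h2 := LinearMap.bot_lt_ker_of_det_eq_zero h1
  rw [LinearMap.ker_eq_bot.2 h] at h2
  exact lt_irrefl _ h2

/-- `(0, u)` -/
def z3 (u : Cm 3) : Cm 4 := ![0, u 0, u 1, u 2]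

/-- the last three coordinates -/
def l3 (z : Cm 4) : Cm 3 := ![z 1, z 2, z 3]

theorem l3_z3 (u : Cm 3) : l3 (z3 u) = u := by
  ext i; fin_cases i <;> rfl

theorem z3_l3 {z : Cm 4} (h : z 0 = 0) : z3 (l3 z) = z := by
  ext i
  fin_cases i
  · exact h.symm
  · rfl
  · rfl
  · rfl

/-- `l3` as a linear map -/
def l3L : Cm 4 →L[ℂ] Cm 3 := ContinuousLinearMap.pi fun i =>
  ContinuousLinearMap.proj (R := ℂ) (φ := fun _ : Fin 4 => ℂ) i.succ

theorem l3L_apply (z : Cm 4) : l3L z = l3 z := by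
  ext i; fin_cases i <;> rfl

/-- `z3` as a linear map -/
def z3L : Cm 3 →L[ℂ] Cm 4 := ContinuousLinearMap.pi fun i =>
  Fin.cases 0 (fun j => ContinuousLinearMap.proj (R := ℂ) (φ := fun _ : Fin 3 => ℂ) j) i

theorem z3L_apply (u : Cm 3) : z3L u = z3 u := by
  ext i; fin_cases i <;> rfl

section
variable {Y H : Type} [TopologicalSpace Y] [T2Space Y] [ChartedSpace (Cm 4) Y]
  [IsManifold 𝓘(ℂ, Cm 4) ω Y] [TopologicalSpace H] [T2Space H] [CompactSpace H]
  [ChartedSpace (Cm 3) H] [IsManifold 𝓘(ℂ, Cm 3) ω H] {ι : H → Y}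

/-- adapted charts -/
theorem exists_ad (hι : IsSub ι) {V : Set H} {y : H} (h : IsHypAt 3 V y) :
    ∃ Ψ c r, H615.IsAd (range ι) (ι '' V) Ψ c r ∧ Ψ c = ι y := by
  have hyV : y ∈ V := isHypAt_mem h
  obtain ⟨q, D, w, hq, hw, rfl⟩ := exists_sc h
  have hw0 : w 0 = 0 := (hq.mem w hw).1 hyV
  set e := chartAt (Cm 3) (q w) with hedef
  have he : At e (q w) := ⟨chart_mem_atlas _ _, mem_chart_source _ _⟩
  set e' := chartAt (Cm 4) (ι (q w)) with hedef'
  have he' : At e' (ι (q w)) := ⟨chart_mem_atlas _ _, mem_chart_source _ _⟩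
  obtain ⟨hG, hGi⟩ := hι.holo (q w) e e' he he'
  have hK := hq.an w hw e he
  -- the immersion `F`
  set F : Cm 3 → Cm 4 := fun u => e' (ι (q u)) with hF
  have hFe : (fun u => e' (ι (e.symm (e (q u))))) =ᶠ[𝓝 w] F := by
    filter_upwards [(hq.cont w hw).eventually (e.open_source.mem_nhds he.2)] with u hu
    simp only [hF, e.left_inv hu]
  have hFa : AnalyticAt ℂ F w :=
    (AnalyticAt.fun_comp (g := fun z => e' (ι (e.symm z))) (f := fun u => e (q u)) hG hK).congr hFe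
  have hKi : Function.Injective (fderiv ℂ (fun u => e (q u)) w) := by
    refine inj_of_leftInv (lam := fun z => inv0 q D (e.symm z)) hK ?_ ?_
    · refine AnalyticAt.pi fun i => ?_
      exact hq.inv_hol (mem_image_of_mem _ hw) i e he
    · filter_upwards [(hq.cont w hw).eventually (e.open_source.mem_nhds he.2),
        hq.isOpen.mem_nhds hw] with u hu hu'
      rw [e.left_inv hu, hq.inv_apply hu']
  have hFi : Function.Injective (fderiv ℂ F w) := by
    rw [← hFe.fderiv_eq]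
    have h1 : fderiv ℂ (fun u => e' (ι (e.symm (e (q u))))) w =
        (fderiv ℂ (fun z => e' (ι (e.symm z))) (e (q w))).comp (fderiv ℂ (fun u => e (q u)) w) :=
      fderiv_comp (g := fun z => e' (ι (e.symm z))) (f := fun u => e (q u)) w
        hG.differentiableAt hK.differentiableAt
    rw [h1]
    exact hGi.comp hKi
  -- a transversal vector
  obtain ⟨a, ha⟩ : ∃ a : Cm 4, ∀ u, fderiv ℂ F w u ≠ a := by
    by_contra hcon
    push Not at hcon
    have h1 : Function.Surjective ((fderiv ℂ F w : Cm 3 →L[ℂ] Cm 4) : Cm 3 →ₗ[ℂ] Cm 4) := hcon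
    have h2 := LinearMap.finrank_le_finrank_of_injective (f := ((fderiv ℂ F w : Cm 3 →L[ℂ] Cm 4) :
      Cm 3 →ₗ[ℂ] Cm 4)) hFi
    have h3 := LinearMap.finrank_range_of_inj (f := ((fderiv ℂ F w : Cm 3 →L[ℂ] Cm 4) :
      Cm 3 →ₗ[ℂ] Cm 4)) hFi
    rw [LinearMap.range_eq_top.2 h1] at h3
    simp at h3
  set Ψ₀ : Cm 4 → Cm 4 := fun z => F (l3 z) + z 0 • a with hΨ₀
  set z₀ : Cm 4 := z3 w with hz₀
  have hl3 : l3 z₀ = w := l3_z3 w
  have hΨa : AnalyticAt ℂ Ψ₀ z₀ := by
    refine AnalyticAt.add ?_ ?_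
    · refine AnalyticAt.fun_comp (g := F) (f := l3) (by rw [hl3]; exact hFa) ?_
      exact (l3L.analyticAt z₀).congr (Eventually.of_forall fun z => l3L_apply z)
    · exact (ContinuousLinearMap.proj (R := ℂ) (φ := fun _ : Fin 4 => ℂ) 0).analyticAt z₀ |>.smul
        analyticAt_const
  have hΨd : fderiv ℂ Ψ₀ z₀ = (fderiv ℂ F w).comp l3L +
      (ContinuousLinearMap.proj (R := ℂ) (φ := fun _ : Fin 4 => ℂ) 0).smulRight a := by
    refine HasFDerivAt.fderiv ?_
    refine HasFDerivAt.add ?_ ?_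
    · have h1 : HasFDerivAt F (fderiv ℂ F w) (l3L z₀) := by
        rw [l3L_apply, hl3]; exact hFa.differentiableAt.hasFDerivAt
      have h2 := h1.comp z₀ l3L.hasFDerivAt
      refine h2.congr_of_eventuallyEq (Eventually.of_forall fun z => ?_)
      show F (l3 z) = F (l3L z)
      rw [l3L_apply]
    · exact ((ContinuousLinearMap.proj (R := ℂ) (φ := fun _ : Fin 4 => ℂ) 0).smulRight
        a).hasFDerivAt
  have hΨi : Function.Injective (fderiv ℂ Ψ₀ z₀) := by
    rw [injective_iff_map_eq_zero]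
    intro v hv
    rw [hΨd] at hv
    have hv' : fderiv ℂ F w (l3 v) + v 0 • a = 0 := by
      rw [← l3L_apply]; exact hv
    have hv0 : v 0 = 0 := by
      by_contra hne
      refine ha (-(v 0)⁻¹ • l3 v) ?_
      rw [map_smul, eq_neg_of_add_eq_zero_left hv', smul_neg, neg_smul, neg_neg, smul_smul,
        inv_mul_cancel₀ hne, one_smul]
    rw [hv0, zero_smul, add_zero] at hv'
    have h2 : l3 v = 0 := hFi (by rw [hv', map_zero])
    rw [← z3_l3 hv0, h2]
    ext i; fin_cases i <;> rfl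
  obtain ⟨E, hE, hzE, hEan, hEsymm⟩ := H73.exists_localInv hΨa hΨi
  have hΨz : Ψ₀ z₀ = e' (ι (q w)) := by
    simp only [hΨ₀, hl3, hF]
    show e' (ι (q w)) + z3 w 0 • a = _
    rw [show z3 w 0 = 0 from rfl, zero_smul, add_zero]
  have hEz : E z₀ = e' (ι (q w)) := by rw [hE, hΨz]
  have hΨtar : Ψ₀ z₀ ∈ e'.target := by rw [hΨz]; exact e'.map_source he'.2
  -- neighbourhoods
  have hz3c : Continuous z3 := by
    have h1 : z3 = fun u => z3L u := funext fun u => (z3L_apply u).symm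
    rw [h1]; exact z3L.continuous
  have hl3c : Continuous l3 := by
    have h1 : l3 = fun u => l3L u := funext fun u => (l3L_apply u).symm
    rw [h1]; exact l3L.continuous
  have hN1 : ∀ᶠ u in 𝓝 w, u ∈ D ∧ ι (q u) ∈ e'.source ∧ z3 u ∈ E.source := by
    refine (hq.isOpen.eventually_mem hw).and (Eventually.and ?_ ?_)
    · exact (ContinuousAt.comp (g := ι) hι.cont.continuousAt (hq.cont w hw)).eventually
        (e'.open_source.mem_nhds he'.2)
    · exact hz3c.continuousAt.eventually (E.open_source.mem_nhds hzE)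
  obtain ⟨r₂, hr₂, hb₂⟩ := Metric.eventually_nhds_iff_ball.1 hN1
  have hb₂D : ball w r₂ ⊆ D := fun u hu => (hb₂ u hu).1
  have hUo : IsOpen (q '' ball w r₂) := hq.openMap _ hb₂D isOpen_ball
  have hιe : Topology.IsClosedEmbedding ι := hι.cont.isClosedEmbedding hι.inj
  obtain ⟨W, hW, hWU⟩ := hιe.isInducing.isOpen_iff.1 hUo
  have hwW : ι (q w) ∈ W := by
    have h1 : q w ∈ ι ⁻¹' W := by rw [hWU]; exact ⟨w, mem_ball_self hr₂, rfl⟩
    exact h1
  set Ψ : Cm 4 → Y := fun z => e'.symm (Ψ₀ z) with hΨ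
  have hΨΨ : Ψ z₀ = ι (q w) := by
    show e'.symm (Ψ₀ z₀) = _
    rw [hΨz, e'.left_inv he'.2]
  have hN2 : ∀ᶠ z in 𝓝 z₀, z ∈ E.source ∧ Ψ₀ z ∈ e'.target ∧ Ψ z ∈ W ∧ l3 z ∈ ball w r₂ := by
    refine (E.open_source.eventually_mem hzE).and (Eventually.and ?_ (Eventually.and ?_ ?_))
    · exact hΨa.continuousAt.eventually (e'.open_target.mem_nhds hΨtar)
    · have h1 : ContinuousAt Ψ z₀ :=
        ContinuousAt.comp (g := e'.symm) (e'.continuousAt_symm hΨtar) hΨa.continuousAt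
      exact h1.eventually (hW.mem_nhds (by rw [hΨΨ]; exact hwW))
    · refine hl3c.continuousAt.eventually (isOpen_ball.mem_nhds ?_)
      rw [hl3]; exact mem_ball_self hr₂
  obtain ⟨r, hr, hb⟩ := Metric.eventually_nhds_iff_ball.1 hN2
  have hz00 : z₀ 0 = 0 := rfl
  have hrestr : ∀ z ∈ ball z₀ r, z 0 = 0 → Ψ z = ι (q (l3 z)) := by
    intro z hz h0
    show e'.symm (F (l3 z) + z 0 • a) = _
    rw [h0, zero_smul, add_zero]
    exact e'.left_inv (hb₂ _ (hb z hz).2.2.2).2.1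
  have hmem : ∀ z ∈ ball z₀ r, Ψ z ∈ range ι ↔ z 0 = 0 := by
    intro z hz
    constructor
    · rintro ⟨y', hy'⟩
      obtain ⟨h1, h2, h3, h4⟩ := hb z hz
      have h5 : y' ∈ q '' ball w r₂ := by
        rw [← hWU]
        show ι y' ∈ W
        rw [hy']; exact h3
      obtain ⟨u, hu, rfl⟩ := h5
      obtain ⟨h6, h7, h8⟩ := hb₂ u hu
      have h9 : E (z3 u) = E z := by
        rw [hE]
        show F (l3 (z3 u)) + z3 u 0 • a = Ψ₀ z
        rw [l3_z3, show z3 u 0 = 0 from rfl, zero_smul, add_zero]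
        show e' (ι (q u)) = Ψ₀ z
        rw [hy']
        exact e'.right_inv h2
      rw [← E.injOn h8 h1 h9]
      rfl
    · intro h0
      rw [hrestr z hz h0]
      exact mem_range_self _
  refine ⟨Ψ, z₀, r, ⟨⟨hr, hz00, ?_, ?_, ?_, ?_, hmem⟩, ?_, ?_⟩, hΨΨ⟩
  · intro z hz z' hz' hzz
    obtain ⟨h1, h2, -, -⟩ := hb z hz
    obtain ⟨h1', h2', -, -⟩ := hb z' hz'
    refine E.injOn h1 h1' ?_
    rw [hE]
    exact e'.symm.injOn h2 h2' hzz
  · intro N hN hNo
    have h1 : Ψ '' N = e'.symm '' (E '' N) := by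
      rw [← image_comp, hE]; rfl
    rw [h1]
    refine e'.symm.isOpen_image_of_subset_source ?_ ?_
    · exact E.isOpen_image_of_subset_source hNo fun z hz => (hb z (hN hz)).1
    · rintro _ ⟨z, hz, rfl⟩
      rw [hE]
      exact (hb z (hN hz)).2.1
  · intro z hz
    exact ContinuousAt.comp (g := e'.symm) (e'.continuousAt_symm (hb z hz).2.1)
      (hEan z (hb z hz).1).continuousAt
  · intro z hz ch hch
    obtain ⟨h1, h2, -, -⟩ := hb z hz
    have hch' : At e' (Ψ z) := ⟨he'.1, e'.map_target h2⟩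
    have h3 := chg_analyticAt hch hch'
    have h4 : e' (Ψ z) = Ψ₀ z := e'.right_inv h2
    rw [h4] at h3
    have h5 : AnalyticAt ℂ (fun z => ch (Ψ z)) z :=
      AnalyticAt.fun_comp (g := fun z => ch (e'.symm z)) h3 (hEan z h1)
    refine ⟨h5, det_ne_zero_of_inj (inj_of_leftInv
      (lam := fun x => E.symm (e' (ch.symm x))) h5 ?_ ?_)⟩
    · have h6 := chg_analyticAt hch' hch
      refine AnalyticAt.fun_comp (g := E.symm) ?_ h6
      rw [ch.left_inv hch.2, h4]
      refine hEsymm _ ?_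
      have h7 := E.map_source h1
      rwa [hE] at h7
    · have h8 : ContinuousAt Ψ z :=
        ContinuousAt.comp (g := e'.symm) (e'.continuousAt_symm h2) (hEan z h1).continuousAt
      filter_upwards [h8.eventually (ch.open_source.mem_nhds hch.2), isOpen_ball.mem_nhds hz]
        with z' h9 h10
      obtain ⟨h11, h12, -, -⟩ := hb z' h10
      rw [ch.left_inv h9]
      have h13 : e' (Ψ z') = E z' := by
        rw [hE]
        exact e'.right_inv h12
      rw [h13, E.left_inv h11]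
  · show z3 w 1 = 0
    exact hw0
  · intro z hz
    constructor
    · rintro ⟨y', hy'V, hy'⟩
      have h0 : z 0 = 0 := (hmem z hz).1 ⟨y', hy'⟩
      rw [hrestr z hz h0] at hy'
      have h1 : y' = q (l3 z) := hι.inj hy'
      refine ⟨h0, ?_⟩
      have h2 : l3 z ∈ D := hb₂D (hb z hz).2.2.2
      exact (hq.mem _ h2).1 (by rw [← h1]; exact hy'V)
    · rintro ⟨h0, h1⟩
      have h2 : l3 z ∈ D := hb₂D (hb z hz).2.2.2
      rw [hrestr z hz h0]
      exact mem_image_of_mem _ ((hq.mem _ h2).2 h1)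

theorem thinM_image (hι : IsSub ι) {k : ℕ} {T : Set H} (hT : ThinM 3 k T) :
    ThinM 4 k (ι '' T) := by
  obtain ⟨Ω, g, h1, h2, h3⟩ := hT
  refine ⟨Ω, fun l p => ι (g l p), h1, fun l p hp => ⟨?_, fun e' he' => ?_⟩, ?_⟩
  · exact ContinuousAt.comp (g := ι) hι.cont.continuousAt (h2 l p hp).1
  · set e := chartAt (Cm 3) (g l p) with hedef
    have he : At e (g l p) := ⟨chart_mem_atlas _ _, mem_chart_source _ _⟩
    have h4 := (hι.holo (g l p) e e' he he').1
    have h5 : AnalyticAt ℂ (fun p => e' (ι (e.symm (e (g l p))))) p :=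
      AnalyticAt.fun_comp (g := fun z => e' (ι (e.symm z))) h4 ((h2 l p hp).2 e he)
    refine h5.congr ?_
    filter_upwards [(h2 l p hp).1.eventually (e.open_source.mem_nhds he.2)] with p' hp'
    rw [e.left_inv hp']
  · rintro _ ⟨y, hy, rfl⟩
    obtain ⟨l, p, hp, rfl⟩ := mem_iUnion.1 (h3 hy)
    exact mem_iUnion.2 ⟨l, p, hp, rfl⟩

end

/-- (A6) -/
theorem stFinV_of (hCl : StCl) : H615.StFinV := by
  intro Y _ _ _ _ _ W X Z r v₀ p P G hr f f' A L L' hfl O v hs hO hv H _ _ _ _ _ _ ι hι hne hT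
  obtain ⟨K, V, h1, h2, h3⟩ := a6_H hCl hι hr (fun j => ⟨_, _, hfl j⟩) hs hO hv
    (by
      intro hcon
      obtain ⟨y, hy⟩ := hne
      rw [hO] at hy
      exact hy (hcon (mem_range_self y))) hT
  refine ⟨0, K, fun l => ι '' V l, fun l => (h1 l).image _ hι.cont.continuousOn, ?_, ?_⟩
  · rintro l _ ⟨y, hy, rfl⟩
    exact exists_ad hι (h2 l y hy)
  · intro j _
    refine (thinM_image hι (h3 j)).mono ?_
    rintro _ ⟨⟨⟨y, rfl⟩, hyO⟩, hyV⟩
    refine ⟨y, ⟨hyO, fun hcon => hyV ?_⟩, rfl⟩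
    obtain ⟨l, hl⟩ := mem_iUnion.1 hcon
    exact mem_iUnion.2 ⟨l, mem_image_of_mem _ hl⟩

end Vale.Agent.P277.H60.Z
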