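import Vale.Agent.P277.H60.Z.XH

/-!
# P277, T3, EX0: good points, orders
-/

open scoped Manifold ContDiff Topology
open Vale.Agent.P272.K Vale.Agent.P285.H281.FD Set Filter Metric

set_option linter.unusedSectionVars false

noncomputable section

namespace Vale.Agent.P277.H60.Z

open Vale.Agent.P277 Vale.Agent.P277.H762 Vale.Agent.P277.T3 Vale.Agent.P277.PH
open Vale.Agent.P277.H60.X

/-- `(w 1, w 2)` -/
def l2 (w : Cm 3) : Cm 2 := ![w 1, w 2]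

theorem l2_zx (p : Cm 2) : l2 (zx p) = p := by
  ext i; fin_cases i <;> rfl

theorem zx_l2 {w : Cm 3} (h : w 0 = 0) : zx (l2 w) = w := by
  ext i
  fin_cases i
  · exact h.symm
  · rfl
  · rfl

theorem l2_an (w : Cm 3) : AnalyticAt ℂ l2 w := by
  refine AnalyticAt.pi fun k => ?_
  fin_cases k
  · exact (ContinuousLinearMap.proj (R := ℂ) (φ := fun _ : Fin 3 => ℂ) 1).analyticAt w
  · exact (ContinuousLinearMap.proj (R := ℂ) (φ := fun _ : Fin 3 => ℂ) 2).analyticAt w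

section
variable {H : Type} [TopologicalSpace H] [ChartedSpace (Cm 3) H] {S : Set H} {q : Cm 3 → H}
  {D : Set (Cm 3)}

theorem SC.mono {D' : Set (Cm 3)} (h : SC S q D) (hD' : IsOpen D') (hs : D' ⊆ D) : SC S q D' :=
  ⟨hD', h.inj.mono hs, fun W hW => h.openMap W (hW.trans hs), fun z hz => h.cont z (hs hz),
    fun z hz => h.an z (hs hz), fun z hz => h.hol z (hs hz), fun z hz => h.mem z (hs hz)⟩

/-- the inverse of a straight chart -/
def inv0 [Nonempty (Cm 3)] (q : Cm 3 → H) (D : Set (Cm 3)) (y : H) : Cm 3 :=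
  Function.invFunOn q D y

theorem SC.inv_apply (h : SC S q D) {w : Cm 3} (hw : w ∈ D) : inv0 q D (q w) = w :=
  h.inj.leftInvOn_invFunOn hw

theorem SC.inv_hol (h : SC S q D) {y : H} (hy : y ∈ q '' D) (i : Fin 3) :
    HolF 3 (fun y => inv0 q D y i) y := by
  obtain ⟨w, hw, rfl⟩ := hy
  rw [h.hol w hw]
  refine ((ContinuousLinearMap.proj (R := ℂ) (φ := fun _ : Fin 3 => ℂ) i).analyticAt w).congr ?_
  filter_upwards [h.isOpen.mem_nhds hw] with z hz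
  rw [h.inv_apply hz]
  rfl

/-- the good points of `S` -/
def GS0 (S : Set H) : Set H :=
  {y | ∃ (q : Cm 3 → H) (p₀ : Cm 2) (r : ℝ), SC S q (ball (zx p₀) r) ∧ 0 < r ∧ q (zx p₀) = y}

theorem gs0_of (h : SC S q D) {w : Cm 3} (hw : w ∈ D) (h0 : w 0 = 0) : q w ∈ GS0 S := by
  obtain ⟨r, hr, hrD⟩ := Metric.isOpen_iff.1 h.isOpen w hw
  have h1 := zx_l2 h0
  refine ⟨q, l2 w, r, h.mono isOpen_ball (by rw [h1]; exact hrD), hr, by rw [h1]⟩

theorem gs0_sub : GS0 S ⊆ S := by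
  rintro _ ⟨q, p₀, r, h, hr, rfl⟩
  exact (h.mem _ (mem_ball_self hr)).2 rfl

theorem gs0_open {y : H} (hy : y ∈ GS0 S) : ∃ V : Set H, IsOpen V ∧ y ∈ V ∧ V ∩ S ⊆ GS0 S := by
  obtain ⟨q, p₀, r, h, hr, rfl⟩ := hy
  refine ⟨q '' ball (zx p₀) r, h.openMap _ Subset.rfl isOpen_ball, ⟨_, mem_ball_self hr, rfl⟩, ?_⟩
  rintro _ ⟨⟨w, hw, rfl⟩, hS⟩
  exact gs0_of h hw ((h.mem w hw).1 hS)

theorem isClosed_bad0 (hS : IsClosed S) : IsClosed (S \ GS0 S) := by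
  rw [← isOpen_compl_iff, isOpen_iff_mem_nhds]
  intro x hx
  by_cases hxS : x ∈ S
  · have hxG : x ∈ GS0 S := by
      by_contra hcon
      exact hx ⟨hxS, hcon⟩
    obtain ⟨V, hV, hxV, hVG⟩ := gs0_open hxG
    filter_upwards [hV.mem_nhds hxV] with y hy hy'
    exact hy'.2 (hVG ⟨hy, hy'.1⟩)
  · filter_upwards [hS.isOpen_compl.mem_nhds hxS] with y hy hy'
    exact hy hy'.1

theorem isClosed_of_isAnAt (h : ∀ y, IsAnAt 3 S y) : IsClosed S := by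
  rw [← isOpen_compl_iff, isOpen_iff_mem_nhds]
  intro y hy
  obtain ⟨k, f, hf, hS⟩ := h y
  have h1 : ¬ ∀ i, f i y = 0 := fun h0 => hy (hS.self_of_nhds.2 h0)
  push Not at h1
  obtain ⟨i, hi⟩ := h1
  filter_upwards [(holF_cont (hf i)).eventually_ne hi, hS] with y' h2 h3 h4
  exact h2 (h3.1 h4 i)

end

section
variable {H : Type} [TopologicalSpace H] [T2Space H] [CompactSpace H] [ChartedSpace (Cm 3) H]
  [IsManifold 𝓘(ℂ, Cm 3) ω H] {S : Set H} {q : Cm 3 → H} {D : Set (Cm 3)}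

theorem SC.holAt (h : SC S q D) {w : Cm 3} (hw : w ∈ D) : HolAt (XH 3 H) q w :=
  holAt_iff.2 ⟨h.cont w hw, h.an w hw⟩

theorem SC.surf (h : SC S q D) {w : Cm 3} (hw : w ∈ D) (h0 : w 0 = 0) :
    IsSurfX (XH 3 H) S (q w) := by
  have hDo : IsOpen (q '' D) := h.openMap D Subset.rfl h.isOpen
  have hzD : q w ∈ q '' D := mem_image_of_mem _ hw
  have key : ∀ z' ∈ D, (q z' ∈ S ↔ zx (l2 (inv0 q D (q z'))) ∈ D ∧
      q (zx (l2 (inv0 q D (q z')))) = q z') := by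
    intro z' hz'
    rw [h.mem z' hz', h.inv_apply hz']
    constructor
    · intro h2
      rw [zx_l2 h2]
      exact ⟨hz', rfl⟩
    · rintro ⟨h2, h3⟩
      have h4 : zx (l2 z') = z' := h.inj h2 hz' h3
      rw [← h4]
      rfl
  refine ⟨{p | zx p ∈ D}, fun p => q (zx p), fun y => l2 (inv0 q D y), ?_, ?_, ?_, ?_, ?_, ?_⟩
  · exact h.isOpen.preimage (continuous_of_an zx_an)
  · intro p hp
    exact HolAt.comp (h.holAt hp) (zx_an p)
  · refine ⟨l2 w, ?_, ?_⟩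
    · show zx (l2 w) ∈ D
      rw [zx_l2 h0]; exact hw
    · show q (zx (l2 w)) = q w
      rw [zx_l2 h0]
  · intro i
    filter_upwards [hDo.mem_nhds hzD] with y hy
    fin_cases i
    · exact h.inv_hol hy 1
    · exact h.inv_hol hy 2
  · intro p hp
    show l2 (inv0 q D (q (zx p))) = p
    rw [h.inv_apply hp, l2_zx]
  · filter_upwards [hDo.mem_nhds hzD] with y hy
    obtain ⟨z', hz', rfl⟩ := hy
    exact key z' hz'

theorem SC.dimLe (h : SC S q D) {d : ℕ} {T : Set (Cm 3)} (hT : Cv d T) :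
    DimLe (XH 3 H) d (q '' (D ∩ T)) := by
  obtain ⟨Ω, g, h1, h2, h3⟩ := hT
  refine ⟨fun l => {p | p ∈ Ω l ∧ g l p ∈ D}, fun l p => q (g l p), fun l => ?_, fun l p hp => ?_,
    ?_⟩
  · rw [isOpen_iff_mem_nhds]
    intro p hp
    filter_upwards [(h1 l).mem_nhds hp.1,
      (h2 l p hp.1).continuousAt.eventually (h.isOpen.mem_nhds hp.2)] with q hq hq' using ⟨hq, hq'⟩
  · exact HolAt.comp (h.holAt hp.2) (h2 l p hp.1)
  · rintro _ ⟨z, ⟨hz, hzT⟩, rfl⟩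
    obtain ⟨l, p, hp, rfl⟩ := mem_iUnion.1 (h3 hzT)
    exact mem_iUnion.2 ⟨l, p, ⟨hp, hz⟩, rfl⟩

theorem SC.cv (h : SC S q D) {d : ℕ} {T : Set H} (hT : DimLe (XH 3 H) d T) :
    Cv d {w | w ∈ D ∧ q w ∈ T} := by
  obtain ⟨Ω, g, h1, h2, h3⟩ := hT
  have hDo : IsOpen (q '' D) := h.openMap D Subset.rfl h.isOpen
  refine ⟨fun l => {p | p ∈ Ω l ∧ g l p ∈ q '' D}, fun l p => inv0 q D (g l p), fun l => ?_,
    fun l p hp => ?_, fun z hz => ?_⟩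
  · rw [isOpen_iff_mem_nhds]
    intro p hp
    filter_upwards [(h1 l).mem_nhds hp.1, (h2 l p hp.1).1.eventually (hDo.mem_nhds hp.2)] with q hq hq'
      using ⟨hq, hq'⟩
  · exact AnalyticAt.pi fun i => (h2 l p hp.1).2 (fun y => inv0 q D y i) (h.inv_hol hp.2 i)
  · obtain ⟨l, p, hp, hpz⟩ := mem_iUnion.1 (h3 hz.2)
    refine mem_iUnion.2 ⟨l, p, ⟨hp, by rw [hpz]; exact mem_image_of_mem _ hz.1⟩, ?_⟩
    show inv0 q D (g l p) = z
    rw [hpz, h.inv_apply hz.1]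

/-- the derivative of `zx` is injective -/
theorem zx_imm (p : Cm 2) : Function.Injective (fderiv ℂ zx p) := by
  have h1 : (fun p => l2 (zx p)) = (id : Cm 2 → Cm 2) := funext fun p => l2_zx p
  have h2 : fderiv ℂ (fun p => l2 (zx p)) p = (fderiv ℂ l2 (zx p)).comp (fderiv ℂ zx p) :=
    fderiv_comp p (l2_an _).differentiableAt (zx_an p).differentiableAt
  rw [h1, fderiv_id] at h2
  intro v v' hv
  have h3 : ∀ v, v = (fderiv ℂ l2 (zx p)) (fderiv ℂ zx p v) := fun v => congrArg (fun T => T v) h2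
  rw [h3 v, h3 v', hv]

theorem SC.ndim (h : SC S q D) {V : Set H} (hV : IsOpen V) {w : Cm 3} (hw : w ∈ D) (h0 : w 0 = 0)
    (hwV : q w ∈ V) : ¬ DimLe (XH 3 H) 1 (V ∩ S) := by
  intro hcon
  have hN : {p : Cm 2 | zx p ∈ D ∧ q (zx p) ∈ V} ∈ 𝓝 (l2 w) := by
    have h1 : ContinuousAt zx (l2 w) := (zx_an _).continuousAt
    have h2 := zx_l2 h0
    have h3 : ∀ᶠ z in 𝓝 (zx (l2 w)), z ∈ D ∧ q z ∈ V := by
      rw [h2]
      exact (h.isOpen.eventually_mem hw).and ((h.cont w hw).eventually (hV.mem_nhds hwV))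
    exact h1.eventually h3
  obtain ⟨p, ⟨hp, hpV⟩, hp'⟩ := exists_notMem_of_cv (by norm_num) (zx_an (l2 w)) (zx_imm _)
    (h.cv hcon) hN
  exact hp' ⟨hp, hpV, (h.mem _ hp).2 rfl⟩

/-- the order of a function along `{w 0 = 0}` -/
theorem ord_local0 {p₀ : Cm 2} {r : ℝ} (hr : 0 < r) (hq : SC S q (ball (zx p₀) r)) {D : Set H}
    {u : H → ℝ} (h : ∀ y, LogAt 3 D u y) :
    ∃ (ρ : ℝ) (m : ℕ) (F : Cm 3 → ℂ) (C : ℝ), 0 < ρ ∧ ρ ≤ r ∧ 0 ≤ C ∧
      DifferentiableOn ℂ F (ball (zx p₀) ρ) ∧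
      (∃ w ∈ ball (zx p₀) ρ, w 0 = 0 ∧ F w ≠ 0) ∧
      ∀ w ∈ ball (zx p₀) ρ, (q w ∈ D ↔ w 0 ^ m * F w = 0) ∧
        (q w ∉ D → |u (q w) - Real.log ‖w 0 ^ m * F w‖| ≤ C) := by
  have hb : zx p₀ ∈ ball (zx p₀) r := mem_ball_self hr
  obtain ⟨f, C, hf, -, hD⟩ := h (q (zx p₀))
  have h2 : AnalyticAt ℂ (fun w => f (q w)) (zx p₀) := (hq.hol _ hb f).1 hf
  obtain ⟨ρ₁, hρ₁, h3⟩ := Metric.eventually_nhds_iff_ball.1
    (h2.eventually_analyticAt.and ((hq.cont _ hb).eventually hD))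
  set ρ := min ρ₁ r with hρ
  have hρ0 : 0 < ρ := lt_min hρ₁ hr
  have hs1 : ball (zx p₀) ρ ⊆ ball (zx p₀) ρ₁ := ball_subset_ball (min_le_left _ _)
  have hs2 : ball (zx p₀) ρ ⊆ ball (zx p₀) r := ball_subset_ball (min_le_right _ _)
  obtain ⟨w', hw', hne⟩ : ∃ w' ∈ ball (zx p₀) ρ, f (q w') ≠ 0 := by
    have h4 : IsOpen (q '' ball (zx p₀) ρ) := hq.openMap _ hs2 isOpen_ball
    obtain ⟨y, hy, hyD⟩ := (logAt_dense h).inter_open_nonempty _ h4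
      ⟨_, _, mem_ball_self hρ0, rfl⟩
    obtain ⟨w', hw', rfl⟩ := hy
    exact ⟨w', hw', fun h0 => hyD ((h3 w' (hs1 hw')).2.1.2 h0)⟩
  obtain ⟨m, G, hGd, hGm, ⟨⟩, w₁, hw₁, hw₁0, hGw⟩ := H884.exists_div (w₀ := zx p₀) (r := ρ)
    (zx_zero p₀) (ι := Unit) (fun _ w => f (q w))
    (fun _ w hw => (h3 w (hs1 hw)).1.differentiableAt.differentiableWithinAt) (i₀ := ()) hw' hne
  refine ⟨ρ, m, G (), |C|, hρ0, min_le_right _ _, abs_nonneg _, hGd _, ⟨w₁, hw₁, hw₁0, hGw⟩,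
    fun w hw => ?_⟩
  obtain ⟨h5, h6⟩ := (h3 w (hs1 hw)).2
  have h7 : f (q w) = w 0 ^ m * G () w := hGm () w hw
  rw [← h7]
  exact ⟨h5, fun hwD => (h6 hwD).trans (le_abs_self _)⟩

theorem exists_ordData0 (hB1 : StB1) {p₀ : Cm 2} {r : ℝ} (hr : 0 < r)
    (hq : SC S q (ball (zx p₀) r)) {N : ℕ} {D : Fin N → Set H} {u : Fin N → H → ℝ}
    (h : ∀ j y, LogAt 3 (D j) (u j) y) :
    ∃ ρ m F C Z, OrdData D u p₀ r (fun _ : Fin 1 => q) ρ m F C Z := by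
  choose ρ m F C h1 h2 h3 h4 h5 h6 using fun (_ : Fin 1) j => ord_local0 hr hq (h j)
  obtain ⟨ρ₀, hρ₀, hρ₁, hρ₂⟩ : ∃ ρ₀ > 0, ρ₀ ≤ r ∧ ∀ k j, ρ₀ ≤ ρ k j := by
    have h7 : ∀ᶠ t : ℝ in 𝓝[>] 0, t ≤ r ∧ ∀ k j, t ≤ ρ k j := by
      refine Eventually.and ?_ (eventually_all.2 fun k => eventually_all.2 fun j => ?_)
      · filter_upwards [Ioo_mem_nhdsGT hr] with t ht using ht.2.le
      · filter_upwards [Ioo_mem_nhdsGT (h1 k j)] with t ht using ht.2.le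
    obtain ⟨t, ht, ht'⟩ := (h7.and self_mem_nhdsWithin).exists
    exact ⟨t, ht', ht.1, ht.2⟩
  have hthin : ∀ k j, Cv 1 {p | p ∈ ball p₀ (ρ k j) ∧ F k j (zx p) = 0} := by
    intro k j
    have hzx : ∀ p ∈ ball p₀ (ρ k j), zx p ∈ ball (zx p₀) (ρ k j) := fun p hp => by
      rw [mem_ball, dist_zx]; exact hp
    have han : ∀ p ∈ ball p₀ (ρ k j), AnalyticAt ℂ (fun p => F k j (zx p)) p := fun p hp =>
      AnalyticAt.fun_comp (Vale.Agent.P268.analyticAt_of_differentiableOn isOpen_ball (h4 k j)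
        (hzx p hp)) (zx_an p)
    obtain ⟨W, G, hW, hGa, hcov⟩ := hB1 1 _ _ isOpen_ball han (by
      intro p hp hcon
      obtain ⟨w, hw, hw0, hFw⟩ := h5 k j
      have hF : AnalyticOnNhd ℂ (fun p => F k j (zx p)) (ball p₀ (ρ k j)) := han
      have hwz : zx (l2 w) = w := zx_l2 hw0
      have hp1 : l2 w ∈ ball p₀ (ρ k j) := by
        rw [mem_ball, ← dist_zx, hwz]; exact hw
      have h8 := hF.eqOn_of_preconnected_of_eventuallyEq (g := 0)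
        (fun _ _ => analyticAt_const) (convex_ball _ _).isPreconnected hp hcon hp1
      simp only [hwz] at h8
      exact hFw h8)
    exact ⟨W, G, hW, fun l p hp => (hGa l p hp).1, hcov⟩
  refine ⟨ρ₀, m, F, C, ⋃ k, ⋃ j, {p | p ∈ ball p₀ (ρ k j) ∧ F k j (zx p) = 0}, hρ₀, hρ₁, h3,
    fun k j => (h4 k j).mono (ball_subset_ball (hρ₂ k j)),
    cv_iUnion fun k => cv_iUnion fun j => hthin k j, fun p hp hpZ k j h0 => hpZ ?_,
    fun k j w hw => h6 k j w (ball_subset_ball (hρ₂ k j) hw)⟩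
  exact mem_iUnion₂.2 ⟨k, j, ball_subset_ball (hρ₂ k j) hp, h0⟩

section dich

variable {p₀ : Cm 2} {r : ℝ} {N : ℕ} {D : Fin N → Set H} {u : Fin N → H → ℝ} {ρ : ℝ}
  {m : Fin 1 → Fin N → ℕ} {F : Fin 1 → Fin N → Cm 3 → ℂ} {C : Fin 1 → Fin N → ℝ} {Z : Set (Cm 2)}

theorem log_ev (hO : OrdData D u p₀ r (fun _ : Fin 1 => q) ρ m F C Z) {p : Cm 2}
    (hp : p ∈ ball p₀ ρ) (hpZ : p ∉ Z) : ∀ᶠ w in 𝓝 (zx p), w ∈ ball (zx p₀) ρ ∧
      ∀ j, |Real.log ‖F 0 j w‖| ≤ |Real.log ‖F 0 j (zx p)‖| + 1 := by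
  have hzxp : zx p ∈ ball (zx p₀) ρ := by rw [mem_ball, dist_zx]; exact hp
  refine (isOpen_ball.eventually_mem hzxp).and (eventually_all.2 fun j => ?_)
  have h1 : ContinuousAt (F 0 j) (zx p) :=
    ((hO.diff 0 j).differentiableAt (isOpen_ball.mem_nhds hzxp)).continuousAt
  have h2 : ContinuousAt (fun w => |Real.log ‖F 0 j w‖|) (zx p) :=
    (h1.norm.log (norm_ne_zero_iff.2 (hO.ne p hp hpZ 0 j))).abs
  exact (h2.eventually (gt_mem_nhds (lt_add_one _))).mono fun w hw => hw.le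

/-- if the combination of the orders vanishes, the function is bounded -/
theorem bd_of0 (hq : SC S q (ball (zx p₀) r))
    (hO : OrdData D u p₀ r (fun _ : Fin 1 => q) ρ m F C Z) (c : Fin N → ℝ)
    (hc : ∑ j, c j * (m 0 j : ℝ) = 0) {p : Cm 2} (hp : p ∈ ball p₀ ρ) (hpZ : p ∉ Z) :
    BdAt univ (⋃ j, D j) id (fun y => ∑ j, c j * u j y) (q (zx p)) := by
  have hzxp : zx p ∈ ball (zx p₀) ρ := by rw [mem_ball, dist_zx]; exact hp
  have hs : ball (zx p₀) ρ ⊆ ball (zx p₀) r := ball_subset_ball hO.le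
  obtain ⟨U, hU, hUo, hpU⟩ := _root_.eventually_nhds_iff.1 (log_ev hO hp hpZ)
  refine ⟨∑ j, |c j| * (C 0 j + (|Real.log ‖F 0 j (zx p)‖| + 1)), ?_⟩
  have h1 : IsOpen (q '' U) := hq.openMap U (fun w hw => hs (hU w hw).1) hUo
  filter_upwards [h1.mem_nhds ⟨_, hpU, rfl⟩] with x' hx' y _ hyD hyx
  obtain ⟨w, hw, rfl⟩ := hx'
  obtain rfl : y = q w := hyx
  have h4 := hO.est c (hU w hw).1 (k := 0) (fun j hj => hyD (mem_iUnion.2 ⟨j, hj⟩))
    (fun j => (hU w hw).2 j)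
  rw [hc, zero_mul, sub_zero] at h4
  exact h4

/-- if the combination of the orders does not vanish, the function is not bounded -/
theorem not_bd_of0 (hq : SC S q (ball (zx p₀) r)) (h : ∀ j y, LogAt 3 (D j) (u j) y)
    (hO : OrdData D u p₀ r (fun _ : Fin 1 => q) ρ m F C Z) (c : Fin N → ℝ)
    (hc : ∑ j, c j * (m 0 j : ℝ) ≠ 0) {p : Cm 2} (hp : p ∈ ball p₀ ρ) (hpZ : p ∉ Z) :
    ¬ BdAt univ (⋃ j, D j) id (fun y => ∑ j, c j * u j y) (q (zx p)) := by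
  rintro ⟨C₀, hC₀⟩
  have hzxp : zx p ∈ ball (zx p₀) ρ := by rw [mem_ball, dist_zx]; exact hp
  have hs : ball (zx p₀) ρ ⊆ ball (zx p₀) r := ball_subset_ball hO.le
  set A : ℝ := ∑ j, c j * (m 0 j : ℝ) with hA
  set C₁ : ℝ := ∑ j, |c j| * (C 0 j + (|Real.log ‖F 0 j (zx p)‖| + 1)) with hC₁
  have hA0 : 0 < |A| := abs_pos.2 hc
  set δ : ℝ := Real.exp (-((|C₀| + C₁) / |A|) - 1) with hδ
  have hsmall : ∀ᶠ w : Cm 3 in 𝓝 (zx p), ‖w 0‖ < δ := by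
    have h1 : ContinuousAt (fun w : Cm 3 => ‖w 0‖) (zx p) := by
      have : Continuous fun w : Cm 3 => ‖w 0‖ := by fun_prop
      exact this.continuousAt
    refine h1.eventually (gt_mem_nhds ?_)
    show ‖zx p 0‖ < δ
    rw [zx_zero, norm_zero]
    exact Real.exp_pos _
  have hev := (hq.cont _ (hs hzxp)).eventually hC₀
  obtain ⟨U, hU, hUo, hpU⟩ := _root_.eventually_nhds_iff.1
    ((log_ev hO hp hpZ).and (hsmall.and hev))
  have hNo : IsOpen {w | w ∈ U ∧ w 0 ≠ 0} :=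
    hUo.inter (isOpen_ne_fun (continuous_apply 0) continuous_const)
  have hNne : {w | w ∈ U ∧ w 0 ≠ 0}.Nonempty := by
    obtain ⟨w, hw, hw0⟩ := exists_ne_zero hUo ⟨_, hpU⟩
    exact ⟨w, hw, hw0⟩
  have hint : IsOpen (q '' {w | w ∈ U ∧ w 0 ≠ 0}) :=
    hq.openMap _ (fun w hw => hs (hU w hw.1).1.1) hNo
  have hdense : Dense (⋂ j, (D j)ᶜ) :=
    dense_iInter_of_isOpen (fun j => logAt_open (h j)) fun j => logAt_dense (h j)
  obtain ⟨y, hy, hyD⟩ := hdense.inter_open_nonempty _ hint (hNne.image _)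
  obtain ⟨w, ⟨hwU, hw0⟩, rfl⟩ := hy
  obtain ⟨⟨hwρ, hwF⟩, hwδ, hwb⟩ := hU w hwU
  have hwD : ∀ j, q w ∉ D j := fun j => (mem_iInter.1 hyD j)
  have h4 := hwb (q w) (mem_univ _) (fun hcon => by
    obtain ⟨j, hj⟩ := mem_iUnion.1 hcon
    exact hwD j hj) rfl
  have h5 := hO.est c hwρ (k := 0) hwD hwF
  have hw0' : 0 < ‖w 0‖ := norm_pos_iff.2 hw0
  have h6 : Real.log ‖w 0‖ < -((|C₀| + C₁) / |A|) - 1 := by
    rw [← Real.log_exp (-((|C₀| + C₁) / |A|) - 1)]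
    exact Real.log_lt_log hw0' hwδ
  have hC₁0 : 0 ≤ C₁ := Finset.sum_nonneg fun j _ => mul_nonneg (abs_nonneg _)
      (add_nonneg (hO.C0 0 j) (by positivity))
  have h7 : |A * Real.log ‖w 0‖| ≤ |C₀| + C₁ := by
    have h8 : A * Real.log ‖w 0‖ = (∑ j, c j * u j (q w)) -
      ((∑ j, c j * u j (q w)) - A * Real.log ‖w 0‖) := by ring
    rw [h8]
    refine (abs_sub _ _).trans (add_le_add (h4.trans (le_abs_self _)) h5)
  rw [abs_mul] at h7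
  have h9 : |Real.log ‖w 0‖| ≤ (|C₀| + C₁) / |A| := by
    rw [le_div_iff₀ hA0]; linarith
  have h10 := neg_abs_le (Real.log ‖w 0‖)
  linarith

end dich

end

end Vale.Agent.P277.H60.Z
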