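import Vale.Agent.P277.H335.Hyp
import Vale.Agent.P277.H60.X.Ord

/-!
# P277, T3, EX0: complex manifolds as complex spaces, straight charts of hypersurfaces
-/

open scoped Manifold ContDiff Topology
open Vale.Agent.P272.K Vale.Agent.P285.H281.FD Set Filter Metric

set_option linter.unusedSectionVars false

noncomputable section

namespace Vale.Agent.P277.H60.Z

open Vale.Agent.P277 Vale.Agent.P277.H762 Vale.Agent.P277.T3 Vale.Agent.P277.PH
open Vale.Agent.P277.H60.X

section
variable (n : ℕ) (H : Type) [TopologicalSpace H] [T2Space H] [CompactSpace H]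
  [ChartedSpace (Cm n) H] [IsManifold 𝓘(ℂ, Cm n) ω H]

/-- the complex space underlying a compact complex manifold -/
def XH : CSp where
  pt := H
  Hol := fun f x => HolF n f x
  model := fun x => by
    refine ⟨n, 0, (chartAt (Cm n) x).source, (chartAt (Cm n) x).target, fun i => i.elim0,
      chartAt (Cm n) x, mem_chart_source _ x, ?_⟩
    refine ⟨(chartAt (Cm n) x).open_source, (chartAt (Cm n) x).open_target, fun i => i.elim0, ?_,
      (chartAt (Cm n) x).isOpenEmbedding_restrict.isEmbedding, ?_⟩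
    · rw [(chartAt (Cm n) x).image_source_eq_target]
      ext z
      exact ⟨fun h => ⟨h, fun i => i.elim0⟩, fun h => h.1⟩
    · intro y hy f
      have hAt : At (chartAt (Cm n) x) y := ⟨chart_mem_atlas _ _, hy⟩
      constructor
      · intro h
        refine ⟨fun z => f ((chartAt (Cm n) x).symm z), h _ hAt, ?_⟩
        filter_upwards [(chartAt (Cm n) x).open_source.mem_nhds hy] with y' hy'
        show f y' = f ((chartAt (Cm n) x).symm (chartAt (Cm n) x y'))
        rw [(chartAt (Cm n) x).left_inv hy']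
      · rintro ⟨g, hg, hfg⟩
        refine holF_of hAt (hg.congr ?_)
        have h1 : ∀ᶠ z in 𝓝 (chartAt (Cm n) x y), f ((chartAt (Cm n) x).symm z) =
            g (chartAt (Cm n) x ((chartAt (Cm n) x).symm z)) := ev_symm hy hfg
        filter_upwards [h1, (chartAt (Cm n) x).open_target.mem_nhds
          ((chartAt (Cm n) x).map_source hy)] with z hz hz'
        rw [hz, (chartAt (Cm n) x).right_inv hz']

end

section
variable {n : ℕ} {H : Type} [TopologicalSpace H] [T2Space H] [CompactSpace H]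
  [ChartedSpace (Cm n) H] [IsManifold 𝓘(ℂ, Cm n) ω H]

/-- holomorphic maps to manifolds -/
theorem holAt_iff {d : ℕ} {g : Cm d → H} {p : Cm d} :
    HolAt (XH n H) g p ↔ ContinuousAt g p ∧
      ∀ e : Chart n H, At e (g p) → AnalyticAt ℂ (fun p => e (g p)) p := by
  constructor
  · intro h
    refine ⟨h.1, fun e he => AnalyticAt.pi fun i => ?_⟩
    refine h.2 (fun y => e y i) ?_
    intro e' he'
    have h1 := chg_analyticAt he he'
    exact (analyticAt_pi_iff.1 h1) i
  · rintro ⟨h1, h2⟩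
    refine ⟨h1, fun f hf => ?_⟩
    set e := chartAt (Cm n) (g p) with he'
    have he : At e (g p) := ⟨chart_mem_atlas _ _, mem_chart_source _ _⟩
    have h3 : AnalyticAt ℂ (fun q => f (e.symm (e (g q)))) p :=
      AnalyticAt.fun_comp (g := fun z => f (e.symm z)) (hf e he) (h2 e he)
    refine h3.congr ?_
    filter_upwards [h1.eventually (e.open_source.mem_nhds he.2)] with q hq
    rw [e.left_inv hq]
    rfl

theorem thinM_iff {d : ℕ} {S : Set H} : ThinM n d S ↔ DimLe (XH n H) d S := by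
  constructor
  · rintro ⟨Ω, g, h1, h2, h3⟩
    exact ⟨Ω, g, h1, fun k p hp => holAt_iff.2 (h2 k p hp), h3⟩
  · rintro ⟨Ω, g, h1, h2, h3⟩
    exact ⟨Ω, g, h1, fun k p hp => holAt_iff.1 (h2 k p hp), h3⟩

theorem isAn_of {S : Set H} (h : ∀ y, IsAnAt n S y) : IsAn (XH n H) univ S := by
  intro y _
  obtain ⟨k, f, h1, h2⟩ := h y
  exact ⟨k, f, h1, h2⟩

end

/-- `q : D → H` is a local coordinate system in which `S` is `{w 0 = 0}`. -/
structure SC {H : Type} [TopologicalSpace H] [ChartedSpace (Cm 3) H] (S : Set H) (q : Cm 3 → H)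
    (D : Set (Cm 3)) : Prop where
  isOpen : IsOpen D
  inj : InjOn q D
  openMap : ∀ W ⊆ D, IsOpen W → IsOpen (q '' W)
  cont : ∀ w ∈ D, ContinuousAt q w
  an : ∀ w ∈ D, ∀ e : Chart 3 H, At e (q w) → AnalyticAt ℂ (fun w => e (q w)) w
  hol : ∀ w ∈ D, ∀ F : H → ℂ, HolF 3 F (q w) ↔ AnalyticAt ℂ (fun w => F (q w)) w
  mem : ∀ w ∈ D, (q w ∈ S ↔ w 0 = 0)

section
variable {H : Type} [TopologicalSpace H] [ChartedSpace (Cm 3) H] [IsManifold 𝓘(ℂ, Cm 3) ω H]

theorem exists_sc {S : Set H} {y : H} (h : IsHypAt 3 S y) :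
    ∃ (q : Cm 3 → H) (D : Set (Cm 3)) (w : Cm 3), SC S q D ∧ w ∈ D ∧ q w = y := by
  obtain ⟨e, he, g, hg, hg0, hgd, hS⟩ := h
  obtain ⟨E, hE, hEan, hEsymm, hEg⟩ := H335.HY.exists_straight hg hgd
  obtain ⟨N, hN, hNo, hyN⟩ := _root_.eventually_nhds_iff.1
    (hS.and (e.open_source.eventually_mem he.2))
  have heN : IsOpen (e '' N) := e.isOpen_image_of_subset_source hNo fun y hy => (hN y hy).2
  set D : Set (Cm 3) := E.target ∩ E.symm ⁻¹' (e '' N) with hD
  have hDo : IsOpen D := E.isOpen_inter_preimage_symm heN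
  let q : Cm 3 → H := fun w => e.symm (E.symm w)
  have hpt : ∀ w ∈ D, ∃ y ∈ N, E.symm w = e y ∧ q w = y := by
    rintro w ⟨-, y, hy, hyw⟩
    refine ⟨y, hy, hyw.symm, ?_⟩
    show e.symm (E.symm w) = y
    rw [← hyw, e.left_inv (hN y hy).2]
  have hc1 : ∀ w ∈ D, ContinuousAt E.symm w := fun w hw => E.continuousAt_symm hw.1
  have hc2 : ∀ w ∈ D, ContinuousAt q w := by
    intro w hw
    obtain ⟨y, hy, hyw, -⟩ := hpt w hw
    refine ContinuousAt.comp (g := e.symm) (e.continuousAt_symm ?_) (hc1 w hw)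
    rw [hyw]
    exact e.map_source (hN y hy).2
  refine ⟨q, D, E (e y), ⟨hDo, ?_, ?_, hc2, ?_, ?_, ?_⟩, ?_, ?_⟩
  · intro w hw w' hw' h
    obtain ⟨y, hy, hyw, hyq⟩ := hpt w hw
    obtain ⟨y', hy', hyw', hyq'⟩ := hpt w' hw'
    have h1 : y = y' := by rw [← hyq, ← hyq']; exact h
    rw [← E.right_inv hw.1, ← E.right_inv hw'.1, hyw, hyw', h1]
  · intro W hW hWo
    have h1 : q '' W = e.symm '' (E.symm '' W) := by
      rw [← image_comp]; rfl
    rw [h1]
    refine e.symm.isOpen_image_of_subset_source ?_ ?_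
    · exact E.symm.isOpen_image_of_subset_source hWo fun w hw => (hW hw).1
    · rintro _ ⟨w, hw, rfl⟩
      obtain ⟨y, hy, hyw, -⟩ := hpt w (hW hw)
      rw [hyw]
      exact e.map_source (hN y hy).2
  · intro w hw e' he'
    obtain ⟨y, hy, hyw, hyq⟩ := hpt w hw
    have hye : At e (q w) := ⟨he.1, by rw [hyq]; exact (hN y hy).2⟩
    have h1 := chg_analyticAt he' hye
    have h2 : e (q w) = E.symm w := by rw [hyq, hyw]
    rw [h2] at h1
    exact AnalyticAt.fun_comp (g := fun z => e' (e.symm z)) h1 (hEsymm w hw.1)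
  · intro w hw F
    obtain ⟨y, hy, hyw, hyq⟩ := hpt w hw
    have hye : At e (q w) := ⟨he.1, by rw [hyq]; exact (hN y hy).2⟩
    have h2 : e (q w) = E.symm w := by rw [hyq, hyw]
    constructor
    · intro h
      have h1 := h e hye
      rw [h2] at h1
      exact AnalyticAt.fun_comp (g := fun z => F (e.symm z)) h1 (hEsymm w hw.1)
    · intro h
      refine holF_of hye ?_
      rw [h2]
      have h3 : E (E.symm w) = w := E.right_inv hw.1
      have h4 : AnalyticAt ℂ (fun z => F (q (E z))) (E.symm w) := by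
        refine AnalyticAt.fun_comp (g := fun w => F (q w)) (by rw [h3]; exact h) ?_
        exact hEan _ (E.map_target hw.1)
      refine h4.congr ?_
      filter_upwards [E.open_source.mem_nhds (E.map_target hw.1)] with z hz
      show F (e.symm (E.symm (E z))) = _
      rw [E.left_inv hz]
  · intro w hw
    obtain ⟨y, hy, hyw, hyq⟩ := hpt w hw
    rw [hyq, (hN y hy).1, ← hEg, ← hyw, E.right_inv hw.1]
  · refine ⟨E.map_source hE, ?_⟩
    show E.symm (E (e y)) ∈ e '' N
    rw [E.left_inv hE]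
    exact ⟨y, hyN, rfl⟩
  · show e.symm (E.symm (E (e y))) = y
    rw [E.left_inv hE, e.left_inv he.2]

end

end Vale.Agent.P277.H60.Z
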